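import Vale.Agent.P032X.H892.LtH
import Vale.Agent.P032X.H286.W73
import Vale.Agent.P032X.Cert.X3.A3.R0T
import Vale.Agent.P032X.Cert.X3.A3.R0Q000
import Vale.Agent.P032X.Cert.X3.A3.R0Q001
import Vale.Agent.P032X.Cert.X3.A3.R0Q002
import Vale.Agent.P032X.Cert.X3.A3.R0Q003
import Vale.Agent.P032X.Cert.X3.A3.R0Q004
import Vale.Agent.P032X.Cert.X3.A3.R0Q005
import Vale.Agent.P032X.Cert.X3.A3.R0Q006
import Vale.Agent.P032X.Cert.X3.A3.R0Q007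

set_option maxRecDepth 1000000

namespace Vale.Agent.P032X.Cert.X3.A3.R0H000

open Vale.Agent.P032.H820.K Vale.Agent.P032.H357.MK Vale.Agent.P032.H286.E Vale.Agent.P032.H61 Vale.Agent.P032X.Cert.X3.A3

noncomputable abbrev Fm : ℕ → List ℕ := Vale.Agent.P032.Fam.fam3 (Vale.Agent.P032.Fam.im0)

def CB : List ℕ := [0, 4, 8, 12, 16, 20, 24]

theorem eB : Vale.Agent.P032.Lt.eqLL (CB.map Fm) R0Q000.E = true := by decide +kernel

def C0 : List ℕ := [0, 4, 8, 12, 16, 20, 24, 82945, 347137, 475137, 737281, 23729709864966, 23729776973830, 23729785362438]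
theorem p0 : Pat 73 73 TBm TCm (C0.map Fm) R0Q000.P0 R0Q000.I0 := Vale.Agent.P032.Lt.pat_eq (E' := R0Q000.E0) (by decide +kernel) (pat_step (by decide +kernel) (q_cons (Vale.Agent.P032.Lt.q R0Q000.q0_0) (q_cons (Vale.Agent.P032.Lt.q R0Q000.q0_1) (q_cons (Vale.Agent.P032.Lt.q R0Q000.q0_2) (q_cons (Vale.Agent.P032.Lt.q R0Q000.q0_3) (q_cons (Vale.Agent.P032.Lt.q R0Q000.q0_4) (q_cons (Vale.Agent.P032.Lt.q R0Q000.q0_5) (q_cons (Vale.Agent.P032.Lt.q R0Q000.q0_6) (q_cons (Vale.Agent.P032.Lt.q R0Q000.q0_7) (q_cons (Vale.Agent.P032.Lt.q R0Q000.q0_8) (q_cons (Vale.Agent.P032.Lt.q R0Q000.q0_9) (q_cons (Vale.Agent.P032.Lt.q R0Q000.q0_10) q_nil))))))))))))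

def C1 : List ℕ := [0, 4, 8, 12, 16, 20, 24, 82945, 214017, 216065, 347137, 476161, 478209, 607233, 609281, 4641383865354, 14062011243530, 19594009076754]
theorem p1 : Pat 73 73 TBm TCm (C1.map Fm) R0Q000.P1 R0Q000.I1 := Vale.Agent.P032.Lt.pat_eq (E' := R0Q000.E1) (by decide +kernel) (pat_step (by decide +kernel) (q_cons (Vale.Agent.P032.Lt.q R0Q000.q1_0) (q_cons (Vale.Agent.P032.Lt.q R0Q000.q1_1) q_nil)))

def C2 : List ℕ := [0, 4, 8, 12, 16, 20, 24, 81921, 212993, 13921102029842]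
theorem p2 : Pat 73 73 TBm TCm (C2.map Fm) R0Q000.P2 R0Q000.I2 := Vale.Agent.P032.Lt.pat_eq (E' := R0Q000.E2) (by decide +kernel) (pat_step (by decide +kernel) (q_cons (Vale.Agent.P032.Lt.q R0Q000.q2_0) (q_cons (Vale.Agent.P032.Lt.q R0Q000.q2_1) q_nil)))

def C3 : List ℕ := [0, 4, 8, 12, 16, 20, 24, 606209, 737281]
theorem p3 : Pat 73 73 TBm TCm (C3.map Fm) R0Q000.P3 R0Q000.I3 := Vale.Agent.P032.Lt.pat_eq (E' := R0Q000.E3) (by decide +kernel) (pat_step (by decide +kernel) (q_cons (Vale.Agent.P032.Lt.q R0Q000.q3_0) (q_cons (Vale.Agent.P032.Lt.q R0Q000.q3_1) (q_cons (Vale.Agent.P032.Lt.q R0Q000.q3_2) q_nil))))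

theorem p4 : Pat 73 73 TBm TCm (CB.map Fm) R0Q000.P4 R0Q000.I4 := Vale.Agent.P032.Lt.pat_eq (E' := R0Q000.E) eB (pat_step (by decide +kernel) (q_cons (Vale.Agent.P032.Lt.q R0Q000.q4_0) q_nil))

def C5 : List ℕ := [0, 4, 8, 12, 16, 20, 24, 216065]
theorem p5 : Pat 73 73 TBm TCm (C5.map Fm) R0Q000.P5 R0Q000.I5 := Vale.Agent.P032.Lt.pat_eq (E' := R0Q000.E5) (by decide +kernel) (pat_step (by decide +kernel) (q_cons (Vale.Agent.P032.Lt.q R0Q000.q5_0) (q_cons (Vale.Agent.P032.Lt.q R0Q000.q5_1) (q_cons (Vale.Agent.P032.Lt.q R0Q000.q5_2) (q_cons (Vale.Agent.P032.Lt.q R0Q000.q5_3) (q_cons (Vale.Agent.P032.Lt.q R0Q000.q5_4) (q_cons (Vale.Agent.P032.Lt.q R0Q000.q5_5) (q_cons (Vale.Agent.P032.Lt.q R0Q000.q5_6) q_nil))))))))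

def C6 : List ℕ := [0, 4, 8, 12, 16, 20, 24, 214017, 476161, 606209, 607233, 737281, 13556567989258, 18511580584970, 24278391937030, 24278404519942, 24338546644998, 24338555033606, 24338613753862, 24338622142470]
theorem p6 : Pat 73 73 TBm TCm (C6.map Fm) R0Q000.P6 R0Q000.I6 := Vale.Agent.P032.Lt.pat_eq (E' := R0Q000.E6) (by decide +kernel) (pat_step (by decide +kernel) (q_cons (Vale.Agent.P032.Lt.q R0Q000.q6_0) (q_cons (Vale.Agent.P032.Lt.q R0Q000.q6_1) (q_cons (Vale.Agent.P032.Lt.q R0Q000.q6_2) (q_cons (Vale.Agent.P032.Lt.q R0Q000.q6_3) (q_cons (Vale.Agent.P032.Lt.q R0Q000.q6_4) (q_cons (Vale.Agent.P032.Lt.q R0Q000.q6_5) (q_cons (Vale.Agent.P032.Lt.q R0Q000.q6_6) (q_cons (Vale.Agent.P032.Lt.q R0Q000.q6_7) (q_cons (Vale.Agent.P032.Lt.q R0Q000.q6_8) (q_cons (Vale.Agent.P032.Lt.q R0Q000.q6_9) (q_cons (Vale.Agent.P032.Lt.q R0Q000.q6_10) (q_cons (Vale.Agent.P032.Lt.q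 R0Q000.q6_11) (q_cons (Vale.Agent.P032.Lt.q R0Q000.q6_12) (q_cons (Vale.Agent.P032.Lt.q R0Q000.q6_13) (q_cons (Vale.Agent.P032.Lt.q R0Q000.q6_14) (q_cons (Vale.Agent.P032.Lt.q R0Q000.q6_15) (q_cons (Vale.Agent.P032.Lt.q R0Q000.q6_16) (q_cons (Vale.Agent.P032.Lt.q R0Q000.q6_17) (q_cons (Vale.Agent.P032.Lt.q R0Q000.q6_18) (q_cons (Vale.Agent.P032.Lt.q R0Q000.q6_19) (q_cons (Vale.Agent.P032.Lt.q R0Q000.q6_20) (q_cons (Vale.Agent.P032.Lt.q R0Q000.q6_21) (q_cons (Vale.Agent.P032.Lt.q R0Q000.q6_22) (q_cons (Vale.Agent.P032.Lt.q R0Q000.q6_23) (q_cons (Vale.Agent.P032.Lt.q R0Q000.q6_24) (q_cons (Vale.Agent.P032.Lt.q R0Q000.q6_25) (q_cons (Vale.Agent.P032.Lt.q R0Q000.q6_26) q_nil))))))))))))))))))))))))))))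

def C7 : List ℕ := [0, 4, 8, 12, 16, 20, 24, 347137, 475137, 609281, 737281, 18911853503506, 23725963958278, 23729720612870]
theorem p7 : Pat 73 73 TBm TCm (C7.map Fm) R0Q000.P7 R0Q000.I7 := Vale.Agent.P032.Lt.pat_eq (E' := R0Q000.E7) (by decide +kernel) (pat_step (by decide +kernel) (q_cons (Vale.Agent.P032.Lt.q R0Q000.q7_0) (q_cons (Vale.Agent.P032.Lt.q R0Q000.q7_1) (q_cons (Vale.Agent.P032.Lt.q R0Q000.q7_2) (q_cons (Vale.Agent.P032.Lt.q R0Q000.q7_3) (q_cons (Vale.Agent.P032.Lt.q R0Q000.q7_4) (q_cons (Vale.Agent.P032.Lt.q R0Q000.q7_5) (q_cons (Vale.Agent.P032.Lt.q R0Q000.q7_6) (q_cons (Vale.Agent.P032.Lt.q R0Q000.q7_7) (q_cons (Vale.Agent.P032.Lt.q R0Q000.q7_8) (q_cons (Vale.Agent.P032.Lt.q R0Q000.q7_9) (q_cons (Vale.Agent.P032.Lt.q R0Q000.q7_10) (q_cons (Vale.Agent.P032.Lt.q R0Q000.q7_11) (q_cons (Vale.Agent.P032.Lt.q R0Q000.q7_12) (q_cons (Vale.Agent.P032.Lt.q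 R0Q000.q7_13) (q_cons (Vale.Agent.P032.Lt.q R0Q000.q7_14) (q_cons (Vale.Agent.P032.Lt.q R0Q000.q7_15) q_nil)))))))))))))))))

def C8 : List ℕ := [0, 4, 8, 12, 16, 20, 24, 84993, 737281, 740353, 22840974992402, 23931717638150, 23931719473158, 23931719735302, 23932660045830]
theorem p8 : Pat 73 73 TBm TCm (C8.map Fm) R0Q000.P8 R0Q000.I8 := Vale.Agent.P032.Lt.pat_eq (E' := R0Q000.E8) (by decide +kernel) (pat_step (by decide +kernel) (q_cons (Vale.Agent.P032.Lt.q R0Q000.q8_0) (q_cons (Vale.Agent.P032.Lt.q R0Q000.q8_1) (q_cons (Vale.Agent.P032.Lt.q R0Q000.q8_2) (q_cons (Vale.Agent.P032.Lt.q R0Q000.q8_3) (q_cons (Vale.Agent.P032.Lt.q R0Q000.q8_4) (q_cons (Vale.Agent.P032.Lt.q R0Q000.q8_5) (q_cons (Vale.Agent.P032.Lt.q R0Q000.q8_6) (q_cons (Vale.Agent.P032.Lt.q R0Q000.q8_7) (q_cons (Vale.Agent.P032.Lt.q R0Q000.q8_8) q_nil))))))))))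

theorem p9 : Pat 73 73 TBm TCm (CB.map Fm) R0Q000.P9 R0Q000.I9 := Vale.Agent.P032.Lt.pat_eq (E' := R0Q000.E) eB (pat_step (by decide +kernel) (q_cons (Vale.Agent.P032.Lt.q R0Q000.q9_0) (q_cons (Vale.Agent.P032.Lt.q R0Q000.q9_1) (q_cons (Vale.Agent.P032.Lt.q R0Q000.q9_2) q_nil))))

def C10 : List ℕ := [0, 4, 8, 12, 16, 20, 24, 83969, 344065, 475137, 480257, 485377, 606209, 608257, 742401, 747521, 14409635026950, 17842746515470, 18803786471430, 18803788568582, 18803788830726, 18806605830150, 18806606092294, 23744811192366, 23923286043674]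
theorem p10 : Pat 73 73 TBm TCm (C10.map Fm) R0Q000.P10 R0Q000.I10 := Vale.Agent.P032.Lt.pat_eq (E' := R0Q000.E10) (by decide +kernel) (pat_step (by decide +kernel) (q_cons (Vale.Agent.P032.Lt.q R0Q000.q10_0) (q_cons (Vale.Agent.P032.Lt.q R0Q000.q10_1) (q_cons (Vale.Agent.P032.Lt.q R0Q000.q10_2) q_nil))))

def C11 : List ℕ := [0, 4, 8, 12, 16, 20, 24, 81921, 212993, 355329, 484353, 486401, 617473, 748545, 13491782241322, 14402169295922, 23193228235826, 23786153923634, 23786156020786, 24335775519794, 24335777616946]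
theorem p11 : Pat 73 73 TBm TCm (C11.map Fm) R0Q000.P11 R0Q000.I11 := Vale.Agent.P032.Lt.pat_eq (E' := R0Q000.E11) (by decide +kernel) (pat_step (by decide +kernel) (q_cons (Vale.Agent.P032.Lt.q R0Q000.q11_0) (q_cons (Vale.Agent.P032.Lt.q R0Q000.q11_1) q_nil)))

def C12 : List ℕ := [0, 4, 8, 12, 16, 20, 24, 82945, 212993, 214017, 218113, 220161, 345089, 349185, 355329, 476161, 480257, 607233, 611329, 738305, 4770122128394, 9042154707978, 13371540462602, 13916459849734, 14041326502946, 14124039236634, 14582604327962, 17821051083786, 18305846041610, 18370762589218, 18513562922010, 18786954990642, 18911822310426, 23811530382346]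
theorem p12 : Pat 73 73 TBm TCm (C12.map Fm) R0Q000.P12 R0Q000.I12 := Vale.Agent.P032.Lt.pat_eq (E' := R0Q000.E12) (by decide +kernel) (pat_step (by decide +kernel) (q_cons (Vale.Agent.P032.Lt.q R0Q000.q12_0) (q_cons (Vale.Agent.P032.Lt.q R0Q000.q12_1) (q_cons (Vale.Agent.P032.Lt.q R0Q000.q12_2) (q_cons (Vale.Agent.P032.Lt.q R0Q000.q12_3) q_nil)))))

theorem p13 : Pat 73 73 TBm TCm (CB.map Fm) R0Q000.P13 R0Q000.I13 := Vale.Agent.P032.Lt.pat_eq (E' := R0Q000.E) eB (pat_step (by decide +kernel) (q_cons (Vale.Agent.P032.Lt.q R0Q000.q13_0) (q_cons (Vale.Agent.P032.Lt.q R0Q000.q13_1) (q_cons (Vale.Agent.P032.Lt.q R0Q000.q13_2) (q_cons (Vale.Agent.P032.Lt.q R0Q000.q13_3) (q_cons (Vale.Agent.P032.Lt.q R0Q000.q13_4) (q_cons (Vale.Agent.P032.Lt.q R0Q000.q13_5) q_nil)))))))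

theorem p14 : Pat 73 73 TBm TCm (CB.map Fm) R0Q001.P14 R0Q001.I14 := Vale.Agent.P032.Lt.pat_eq (E' := R0Q001.E) eB (pat_step (by decide +kernel) (q_cons (Vale.Agent.P032.Lt.q R0Q001.q14_0) (q_cons (Vale.Agent.P032.Lt.q R0Q001.q14_1) (q_cons (Vale.Agent.P032.Lt.q R0Q001.q14_2) (q_cons (Vale.Agent.P032.Lt.q R0Q001.q14_3) (q_cons (Vale.Agent.P032.Lt.q R0Q001.q14_4) (q_cons (Vale.Agent.P032.Lt.q R0Q001.q14_5) (q_cons (Vale.Agent.P032.Lt.q R0Q001.q14_6) (q_cons (Vale.Agent.P032.Lt.q R0Q001.q14_7) (q_cons (Vale.Agent.P032.Lt.q R0Q001.q14_8) (q_cons (Vale.Agent.P032.Lt.q R0Q001.q14_9) (q_cons (Vale.Agent.P032.Lt.q R0Q001.q14_10) (q_cons (Vale.Agent.P032.Lt.q R0Q001.q14_11) (q_cons (Vale.Agent.P032.Lt.q R0Q001.q14_12) q_nil))))))))))))))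

def C15 : List ℕ := [0, 4, 8, 12, 16, 20, 24, 350209, 9169908351006, 9177424543774, 14672699932702]
theorem p15 : Pat 73 73 TBm TCm (C15.map Fm) R0Q001.P15 R0Q001.I15 := Vale.Agent.P032.Lt.pat_eq (E' := R0Q001.E15) (by decide +kernel) (pat_step (by decide +kernel) (q_cons (Vale.Agent.P032.Lt.q R0Q001.q15_0) (q_cons (Vale.Agent.P032.Lt.q R0Q001.q15_1) (q_cons (Vale.Agent.P032.Lt.q R0Q001.q15_2) (q_cons (Vale.Agent.P032.Lt.q R0Q001.q15_3) (q_cons (Vale.Agent.P032.Lt.q R0Q001.q15_4) (q_cons (Vale.Agent.P032.Lt.q R0Q001.q15_5) (q_cons (Vale.Agent.P032.Lt.q R0Q001.q15_6) (q_cons (Vale.Agent.P032.Lt.q R0Q001.q15_7) (q_cons (Vale.Agent.P032.Lt.q R0Q001.q15_8) (q_cons (Vale.Agent.P032.Lt.q R0Q001.q15_9) q_nil)))))))))))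

theorem p16 : Pat 73 73 TBm TCm (CB.map Fm) R0Q001.P16 R0Q001.I16 := Vale.Agent.P032.Lt.pat_eq (E' := R0Q001.E) eB (pat_step (by decide +kernel) (q_cons (Vale.Agent.P032.Lt.q R0Q001.q16_0) (q_cons (Vale.Agent.P032.Lt.q R0Q001.q16_1) (q_cons (Vale.Agent.P032.Lt.q R0Q001.q16_2) (q_cons (Vale.Agent.P032.Lt.q R0Q001.q16_3) (q_cons (Vale.Agent.P032.Lt.q R0Q001.q16_4) (q_cons (Vale.Agent.P032.Lt.q R0Q001.q16_5) (q_cons (Vale.Agent.P032.Lt.q R0Q001.q16_6) (q_cons (Vale.Agent.P032.Lt.q R0Q001.q16_7) (q_cons (Vale.Agent.P032.Lt.q R0Q001.q16_8) (q_cons (Vale.Agent.P032.Lt.q R0Q001.q16_9) (q_cons (Vale.Agent.P032.Lt.q R0Q001.q16_10) (q_cons (Vale.Agent.P032.Lt.q R0Q001.q16_11) (q_cons (Vale.Agent.P032.Lt.q R0Q001.q16_12) (q_cons (Vale.Agent.P032.Lt.q R0Q001.q16_13) (q_cons (Vale.Agent.P032.Lt.q R0Q001.q16_14) (q_cons (Vale.Agent.P032.Lt.q R0Q001.q16_15) (q_cons (Vale.Agent.P032.Lt.q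 R0Q001.q16_16) (q_cons (Vale.Agent.P032.Lt.q R0Q001.q16_17) (q_cons (Vale.Agent.P032.Lt.q R0Q001.q16_18) (q_cons (Vale.Agent.P032.Lt.q R0Q001.q16_19) (q_cons (Vale.Agent.P032.Lt.q R0Q001.q16_20) (q_cons (Vale.Agent.P032.Lt.q R0Q001.q16_21) (q_cons (Vale.Agent.P032.Lt.q R0Q001.q16_22) (q_cons (Vale.Agent.P032.Lt.q R0Q001.q16_23) (q_cons (Vale.Agent.P032.Lt.q R0Q001.q16_24) (q_cons (Vale.Agent.P032.Lt.q R0Q001.q16_25) (q_cons (Vale.Agent.P032.Lt.q R0Q001.q16_26) (q_cons (Vale.Agent.P032.Lt.q R0Q001.q16_27) (q_cons (Vale.Agent.P032.Lt.q R0Q001.q16_28) (q_cons (Vale.Agent.P032.Lt.q R0Q001.q16_29) (q_cons (Vale.Agent.P032.Lt.q R0Q001.q16_30) (q_cons (Vale.Agent.P032.Lt.q R0Q001.q16_31) (q_cons (Vale.Agent.P032.Lt.q R0Q001.q16_32) (q_cons (Vale.Agent.P032.Lt.q R0Q001.q16_33) (q_cons (Vale.Agent.P032.Lt.q R0Q001.q16_34) (q_cons (Vale.Agent.P032.Lt.q R0Q001.q16_35) q_nil)))))))))))))))))))))))))))))))))))))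

def C17 : List ℕ := [0, 4, 8, 12, 16, 20, 24, 89089, 212993, 475137, 737281, 9177521144866]
theorem p17 : Pat 73 73 TBm TCm (C17.map Fm) R0Q001.P17 R0Q001.I17 := Vale.Agent.P032.Lt.pat_eq (E' := R0Q001.E17) (by decide +kernel) (pat_step (by decide +kernel) (q_cons (Vale.Agent.P032.Lt.q R0Q001.q17_0) (q_cons (Vale.Agent.P032.Lt.q R0Q001.q17_1) (q_cons (Vale.Agent.P032.Lt.q R0Q001.q17_2) q_nil))))

def C18 : List ℕ := [0, 4, 8, 12, 16, 20, 24, 84993, 216065, 222209, 347137, 349185, 355329, 609281, 4651721384978, 9049728314394, 9115398267922, 9169890929690, 9169895123994, 14397490549810, 18511675483154, 19061269556250]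
theorem p18 : Pat 73 73 TBm TCm (C18.map Fm) R0Q001.P18 R0Q001.I18 := Vale.Agent.P032.Lt.pat_eq (E' := R0Q001.E18) (by decide +kernel) (pat_step (by decide +kernel) (q_cons (Vale.Agent.P032.Lt.q R0Q001.q18_0) (q_cons (Vale.Agent.P032.Lt.q R0Q001.q18_1) (q_cons (Vale.Agent.P032.Lt.q R0Q001.q18_2) (q_cons (Vale.Agent.P032.Lt.q R0Q001.q18_3) (q_cons (Vale.Agent.P032.Lt.q R0Q001.q18_4) (q_cons (Vale.Agent.P032.Lt.q R0Q001.q18_5) (q_cons (Vale.Agent.P032.Lt.q R0Q001.q18_6) (q_cons (Vale.Agent.P032.Lt.q R0Q001.q18_7) (q_cons (Vale.Agent.P032.Lt.q R0Q001.q18_8) (q_cons (Vale.Agent.P032.Lt.q R0Q001.q18_9) (q_cons (Vale.Agent.P032.Lt.q R0Q001.q18_10) (q_cons (Vale.Agent.P032.Lt.q R0Q001.q18_11) (q_cons (Vale.Agent.P032.Lt.q R0Q001.q18_12) (q_cons (Vale.Agent.P032.Lt.q R0Q001.q18_13) (q_cons (Vale.Agent.P032.Lt.q R0Q001.q18_14) (q_cons (Vale.Agent.P032.Lt.q R0Q001.q18_15)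 (q_cons (Vale.Agent.P032.Lt.q R0Q001.q18_16) (q_cons (Vale.Agent.P032.Lt.q R0Q001.q18_17) (q_cons (Vale.Agent.P032.Lt.q R0Q001.q18_18) (q_cons (Vale.Agent.P032.Lt.q R0Q001.q18_19) (q_cons (Vale.Agent.P032.Lt.q R0Q001.q18_20) (q_cons (Vale.Agent.P032.Lt.q R0Q001.q18_21) (q_cons (Vale.Agent.P032.Lt.q R0Q001.q18_22) (q_cons (Vale.Agent.P032.Lt.q R0Q001.q18_23) (q_cons (Vale.Agent.P032.Lt.q R0Q001.q18_24) (q_cons (Vale.Agent.P032.Lt.q R0Q001.q18_25) (q_cons (Vale.Agent.P032.Lt.q R0Q001.q18_26) (q_cons (Vale.Agent.P032.Lt.q R0Q001.q18_27) (q_cons (Vale.Agent.P032.Lt.q R0Q001.q18_28) (q_cons (Vale.Agent.P032.Lt.q R0Q001.q18_29) (q_cons (Vale.Agent.P032.Lt.q R0Q001.q18_30) q_nil))))))))))))))))))))))))))))))))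

theorem p19 : Pat 73 73 TBm TCm (CB.map Fm) R0Q001.P19 R0Q001.I19 := Vale.Agent.P032.Lt.pat_eq (E' := R0Q001.E) eB (pat_step (by decide +kernel) (q_cons (Vale.Agent.P032.Lt.q R0Q001.q19_0) q_nil))

theorem p20 : Pat 73 73 TBm TCm (CB.map Fm) R0Q001.P20 R0Q001.I20 := Vale.Agent.P032.Lt.pat_eq (E' := R0Q001.E) eB (pat_step (by decide +kernel) (q_cons (Vale.Agent.P032.Lt.q R0Q001.q20_0) (q_cons (Vale.Agent.P032.Lt.q R0Q001.q20_1) (q_cons (Vale.Agent.P032.Lt.q R0Q001.q20_2) (q_cons (Vale.Agent.P032.Lt.q R0Q001.q20_3) (q_cons (Vale.Agent.P032.Lt.q R0Q001.q20_4) (q_cons (Vale.Agent.P032.Lt.q R0Q001.q20_5) (q_cons (Vale.Agent.P032.Lt.q R0Q001.q20_6) (q_cons (Vale.Agent.P032.Lt.q R0Q001.q20_7) (q_cons (Vale.Agent.P032.Lt.q R0Q001.q20_8) (q_cons (Vale.Agent.P032.Lt.q R0Q001.q20_9) (q_cons (Vale.Agent.P032.Lt.q R0Q001.q20_10) q_nil))))))))))))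

def C21 : List ℕ := [0, 4, 8, 12, 16, 20, 24, 91137, 212993, 214017, 353281, 355329, 475137, 476161, 737281, 9046818507818, 9046881422378, 14122124008458, 23729701476358, 23729709864966, 23729776973830, 23789864572934, 23789872961542, 23789931681798, 23789940070406]
theorem p21 : Pat 73 73 TBm TCm (C21.map Fm) R0Q001.P21 R0Q001.I21 := Vale.Agent.P032.Lt.pat_eq (E' := R0Q001.E21) (by decide +kernel) (pat_step (by decide +kernel) (q_cons (Vale.Agent.P032.Lt.q R0Q001.q21_0) (q_cons (Vale.Agent.P032.Lt.q R0Q001.q21_1) (q_cons (Vale.Agent.P032.Lt.q R0Q001.q21_2) (q_cons (Vale.Agent.P032.Lt.q R0Q001.q21_3) (q_cons (Vale.Agent.P032.Lt.q R0Q001.q21_4) (q_cons (Vale.Agent.P032.Lt.q R0Q001.q21_5) (q_cons (Vale.Agent.P032.Lt.q R0Q001.q21_6) (q_cons (Vale.Agent.P032.Lt.q R0Q001.q21_7) (q_cons (Vale.Agent.P032.Lt.q R0Q001.q21_8) (q_cons (Vale.Agent.P032.Lt.q R0Q001.q21_9)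 (q_cons (Vale.Agent.P032.Lt.q R0Q001.q21_10) (q_cons (Vale.Agent.P032.Lt.q R0Q001.q21_11) (q_cons (Vale.Agent.P032.Lt.q R0Q001.q21_12) (q_cons (Vale.Agent.P032.Lt.q R0Q001.q21_13) (q_cons (Vale.Agent.P032.Lt.q R0Q001.q21_14) q_nil))))))))))))))))

def C22 : List ℕ := [0, 4, 8, 12, 16, 20, 24, 81921, 742401, 22707502672922, 23729742638106]
theorem p22 : Pat 73 73 TBm TCm (C22.map Fm) R0Q001.P22 R0Q001.I22 := Vale.Agent.P032.Lt.pat_eq (E' := R0Q001.E22) (by decide +kernel) (pat_step (by decide +kernel) (q_cons (Vale.Agent.P032.Lt.q R0Q001.q22_0) q_nil))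

def C23 : List ℕ := [0, 4, 8, 12, 16, 20, 24, 84993, 212993, 347137, 349185, 606209, 737281, 9115398267922, 9169896959002, 9169959873562]
theorem p23 : Pat 73 73 TBm TCm (C23.map Fm) R0Q001.P23 R0Q001.I23 := Vale.Agent.P032.Lt.pat_eq (E' := R0Q001.E23) (by decide +kernel) (pat_step (by decide +kernel) (q_cons (Vale.Agent.P032.Lt.q R0Q001.q23_0) (q_cons (Vale.Agent.P032.Lt.q R0Q001.q23_1) (q_cons (Vale.Agent.P032.Lt.q R0Q001.q23_2) (q_cons (Vale.Agent.P032.Lt.q R0Q001.q23_3) (q_cons (Vale.Agent.P032.Lt.q R0Q001.q23_4) (q_cons (Vale.Agent.P032.Lt.q R0Q001.q23_5) (q_cons (Vale.Agent.P032.Lt.q R0Q001.q23_6) (q_cons (Vale.Agent.P032.Lt.q R0Q001.q23_7) (q_cons (Vale.Agent.P032.Lt.q R0Q001.q23_8) (q_cons (Vale.Agent.P032.Lt.q R0Q001.q23_9) (q_cons (Vale.Agent.P032.Lt.q R0Q001.q23_10) (q_cons (Vale.Agent.P032.Lt.q R0Q001.q23_11) (q_cons (Vale.Agent.P032.Lt.q R0Q001.q23_12)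 (q_cons (Vale.Agent.P032.Lt.q R0Q001.q23_13) (q_cons (Vale.Agent.P032.Lt.q R0Q001.q23_14) (q_cons (Vale.Agent.P032.Lt.q R0Q001.q23_15) q_nil)))))))))))))))))

def C24 : List ℕ := [0, 4, 8, 12, 16, 20, 24, 82945, 89089, 353281, 475137, 606209, 9117299328034, 9177407898658, 9177475007522, 9177521144866, 17774140152842]
theorem p24 : Pat 73 73 TBm TCm (C24.map Fm) R0Q002.P24 R0Q002.I24 := Vale.Agent.P032.Lt.pat_eq (E' := R0Q002.E24) (by decide +kernel) (pat_step (by decide +kernel) (q_cons (Vale.Agent.P032.Lt.q R0Q002.q24_0) (q_cons (Vale.Agent.P032.Lt.q R0Q002.q24_1) (q_cons (Vale.Agent.P032.Lt.q R0Q002.q24_2) (q_cons (Vale.Agent.P032.Lt.q R0Q002.q24_3) (q_cons (Vale.Agent.P032.Lt.q R0Q002.q24_4) (q_cons (Vale.Agent.P032.Lt.q R0Q002.q24_5) (q_cons (Vale.Agent.P032.Lt.q R0Q002.q24_6) (q_cons (Vale.Agent.P032.Lt.q R0Q002.q24_7) (q_cons (Vale.Agent.P032.Lt.q R0Q002.q24_8)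 (q_cons (Vale.Agent.P032.Lt.q R0Q002.q24_9) (q_cons (Vale.Agent.P032.Lt.q R0Q002.q24_10) (q_cons (Vale.Agent.P032.Lt.q R0Q002.q24_11) (q_cons (Vale.Agent.P032.Lt.q R0Q002.q24_12) (q_cons (Vale.Agent.P032.Lt.q R0Q002.q24_13) (q_cons (Vale.Agent.P032.Lt.q R0Q002.q24_14) q_nil))))))))))))))))

theorem p25 : Pat 73 73 TBm TCm (CB.map Fm) R0Q002.P25 R0Q002.I25 := Vale.Agent.P032.Lt.pat_eq (E' := R0Q002.E) eB (pat_step (by decide +kernel) (q_cons (Vale.Agent.P032.Lt.q R0Q002.q25_0) (q_cons (Vale.Agent.P032.Lt.q R0Q002.q25_1) (q_cons (Vale.Agent.P032.Lt.q R0Q002.q25_2) (q_cons (Vale.Agent.P032.Lt.q R0Q002.q25_3) (q_cons (Vale.Agent.P032.Lt.q R0Q002.q25_4) (q_cons (Vale.Agent.P032.Lt.q R0Q002.q25_5) q_nil)))))))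

def C26 : List ℕ := [0, 4, 8, 12, 16, 20, 24, 224257, 344065, 355329, 9719540700210, 14405945612294]
theorem p26 : Pat 73 73 TBm TCm (C26.map Fm) R0Q002.P26 R0Q002.I26 := Vale.Agent.P032.Lt.pat_eq (E' := R0Q002.E26) (by decide +kernel) (pat_step (by decide +kernel) (q_cons (Vale.Agent.P032.Lt.q R0Q002.q26_0) (q_cons (Vale.Agent.P032.Lt.q R0Q002.q26_1) (q_cons (Vale.Agent.P032.Lt.q R0Q002.q26_2) (q_cons (Vale.Agent.P032.Lt.q R0Q002.q26_3) (q_cons (Vale.Agent.P032.Lt.q R0Q002.q26_4) (q_cons (Vale.Agent.P032.Lt.q R0Q002.q26_5) (q_cons (Vale.Agent.P032.Lt.q R0Q002.q26_6) (q_cons (Vale.Agent.P032.Lt.q R0Q002.q26_7) (q_cons (Vale.Agent.P032.Lt.q R0Q002.q26_8) q_nil))))))))))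

theorem p27 : Pat 73 73 TBm TCm (CB.map Fm) R0Q002.P27 R0Q002.I27 := Vale.Agent.P032.Lt.pat_eq (E' := R0Q002.E) eB (pat_step (by decide +kernel) (q_cons (Vale.Agent.P032.Lt.q R0Q002.q27_0) (q_cons (Vale.Agent.P032.Lt.q R0Q002.q27_1) (q_cons (Vale.Agent.P032.Lt.q R0Q002.q27_2) (q_cons (Vale.Agent.P032.Lt.q R0Q002.q27_3) (q_cons (Vale.Agent.P032.Lt.q R0Q002.q27_4) (q_cons (Vale.Agent.P032.Lt.q R0Q002.q27_5) (q_cons (Vale.Agent.P032.Lt.q R0Q002.q27_6) (q_cons (Vale.Agent.P032.Lt.q R0Q002.q27_7) q_nil)))))))))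

def C28 : List ℕ := [0, 4, 8, 12, 16, 20, 24, 84993, 216065, 222209, 478209, 484353, 609281, 615425, 737281, 13371490395154, 13488030436394, 18391432651794, 18513477979178, 18513479814186, 24278383548422, 24278391937030, 24278404519942, 24278459045894, 24338546644998, 24338555033606, 24338605365254, 24338613753862]
theorem p28 : Pat 73 73 TBm TCm (C28.map Fm) R0Q002.P28 R0Q002.I28 := Vale.Agent.P032.Lt.pat_eq (E' := R0Q002.E28) (by decide +kernel) (pat_step (by decide +kernel) (q_cons (Vale.Agent.P032.Lt.q R0Q002.q28_0) (q_cons (Vale.Agent.P032.Lt.q R0Q002.q28_1) (q_cons (Vale.Agent.P032.Lt.q R0Q002.q28_2) (q_cons (Vale.Agent.P032.Lt.q R0Q002.q28_3) (q_cons (Vale.Agent.P032.Lt.q R0Q002.q28_4) (q_cons (Vale.Agent.P032.Lt.q R0Q002.q28_5) (q_cons (Vale.Agent.P032.Lt.q R0Q002.q28_6) (q_cons (Vale.Agent.P032.Lt.q R0Q002.q28_7) (q_cons (Vale.Agent.P032.Lt.q R0Q002.q28_8)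 (q_cons (Vale.Agent.P032.Lt.q R0Q002.q28_9) (q_cons (Vale.Agent.P032.Lt.q R0Q002.q28_10) (q_cons (Vale.Agent.P032.Lt.q R0Q002.q28_11) (q_cons (Vale.Agent.P032.Lt.q R0Q002.q28_12) (q_cons (Vale.Agent.P032.Lt.q R0Q002.q28_13) (q_cons (Vale.Agent.P032.Lt.q R0Q002.q28_14) (q_cons (Vale.Agent.P032.Lt.q R0Q002.q28_15) (q_cons (Vale.Agent.P032.Lt.q R0Q002.q28_16) (q_cons (Vale.Agent.P032.Lt.q R0Q002.q28_17) (q_cons (Vale.Agent.P032.Lt.q R0Q002.q28_18) (q_cons (Vale.Agent.P032.Lt.q R0Q002.q28_19) (q_cons (Vale.Agent.P032.Lt.q R0Q002.q28_20) (q_cons (Vale.Agent.P032.Lt.q R0Q002.q28_21) (q_cons (Vale.Agent.P032.Lt.q R0Q002.q28_22) (q_cons (Vale.Agent.P032.Lt.q R0Q002.q28_23) (q_cons (Vale.Agent.P032.Lt.q R0Q002.q28_24) (q_cons (Vale.Agent.P032.Lt.q R0Q002.q28_25) (q_cons (Vale.Agent.P032.Lt.q R0Q002.q28_26) (q_cons (Vale.Agent.P032.Lt.q R0Q002.q28_27) (q_cons (Vale.Agent.P032.Lt.q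 R0Q002.q28_28) (q_cons (Vale.Agent.P032.Lt.q R0Q002.q28_29) (q_cons (Vale.Agent.P032.Lt.q R0Q002.q28_30) q_nil))))))))))))))))))))))))))))))))

def C29 : List ℕ := [0, 4, 8, 12, 16, 20, 24, 82945, 87041, 89089, 349185, 611329, 742401, 9169895123994, 9169896959002, 9169958038554, 9177407898658, 22157872032794, 22157985279002, 23729718253574, 23729776973830, 23729785362438, 23789864572934, 23789872961542, 23789931681798]
theorem p29 : Pat 73 73 TBm TCm (C29.map Fm) R0Q002.P29 R0Q002.I29 := Vale.Agent.P032.Lt.pat_eq (E' := R0Q002.E29) (by decide +kernel) (pat_step (by decide +kernel) (q_cons (Vale.Agent.P032.Lt.q R0Q002.q29_0) (q_cons (Vale.Agent.P032.Lt.q R0Q002.q29_1) (q_cons (Vale.Agent.P032.Lt.q R0Q002.q29_2) (q_cons (Vale.Agent.P032.Lt.q R0Q002.q29_3) (q_cons (Vale.Agent.P032.Lt.q R0Q002.q29_4) (q_cons (Vale.Agent.P032.Lt.q R0Q002.q29_5) (q_cons (Vale.Agent.P032.Lt.q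 R0Q002.q29_6) (q_cons (Vale.Agent.P032.Lt.q R0Q002.q29_7) (q_cons (Vale.Agent.P032.Lt.q R0Q002.q29_8) (q_cons (Vale.Agent.P032.Lt.q R0Q002.q29_9) (q_cons (Vale.Agent.P032.Lt.q R0Q002.q29_10) (q_cons (Vale.Agent.P032.Lt.q R0Q002.q29_11) (q_cons (Vale.Agent.P032.Lt.q R0Q002.q29_12) (q_cons (Vale.Agent.P032.Lt.q R0Q002.q29_13) (q_cons (Vale.Agent.P032.Lt.q R0Q002.q29_14) (q_cons (Vale.Agent.P032.Lt.q R0Q002.q29_15) (q_cons (Vale.Agent.P032.Lt.q R0Q002.q29_16) (q_cons (Vale.Agent.P032.Lt.q R0Q002.q29_17) q_nil)))))))))))))))))))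

def C30 : List ℕ := [0, 4, 8, 12, 16, 20, 24, 212993, 220161, 606209, 737281, 9715753108514, 9715820217378]
theorem p30 : Pat 73 73 TBm TCm (C30.map Fm) R0Q002.P30 R0Q002.I30 := Vale.Agent.P032.Lt.pat_eq (E' := R0Q002.E30) (by decide +kernel) (pat_step (by decide +kernel) (q_cons (Vale.Agent.P032.Lt.q R0Q002.q30_0) (q_cons (Vale.Agent.P032.Lt.q R0Q002.q30_1) (q_cons (Vale.Agent.P032.Lt.q R0Q002.q30_2) (q_cons (Vale.Agent.P032.Lt.q R0Q002.q30_3) q_nil)))))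

def C31 : List ℕ := [0, 4, 8, 12, 16, 20, 24, 84993, 89089, 91137, 212993, 222209, 347137, 353281, 606209, 613377, 737281, 9046813008914, 17962896933922]
theorem p31 : Pat 73 73 TBm TCm (C31.map Fm) R0Q002.P31 R0Q002.I31 := Vale.Agent.P032.Lt.pat_eq (E' := R0Q002.E31) (by decide +kernel) (pat_step (by decide +kernel) (q_cons (Vale.Agent.P032.Lt.q R0Q002.q31_0) (q_cons (Vale.Agent.P032.Lt.q R0Q002.q31_1) (q_cons (Vale.Agent.P032.Lt.q R0Q002.q31_2) (q_cons (Vale.Agent.P032.Lt.q R0Q002.q31_3) (q_cons (Vale.Agent.P032.Lt.q R0Q002.q31_4) (q_cons (Vale.Agent.P032.Lt.q R0Q002.q31_5) (q_cons (Vale.Agent.P032.Lt.q R0Q002.q31_6) q_nil))))))))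

def C32 : List ℕ := [0, 4, 8, 12, 16, 20, 24, 84993, 216065, 4649841681426, 4770197234706]
theorem p32 : Pat 73 73 TBm TCm (C32.map Fm) R0Q002.P32 R0Q002.I32 := Vale.Agent.P032.Lt.pat_eq (E' := R0Q002.E32) (by decide +kernel) (pat_step (by decide +kernel) (q_cons (Vale.Agent.P032.Lt.q R0Q002.q32_0) (q_cons (Vale.Agent.P032.Lt.q R0Q002.q32_1) (q_cons (Vale.Agent.P032.Lt.q R0Q002.q32_2) (q_cons (Vale.Agent.P032.Lt.q R0Q002.q32_3) (q_cons (Vale.Agent.P032.Lt.q R0Q002.q32_4) (q_cons (Vale.Agent.P032.Lt.q R0Q002.q32_5) (q_cons (Vale.Agent.P032.Lt.q R0Q002.q32_6) (q_cons (Vale.Agent.P032.Lt.q R0Q002.q32_7) (q_cons (Vale.Agent.P032.Lt.q R0Q002.q32_8) (q_cons (Vale.Agent.P032.Lt.q R0Q002.q32_9) (q_cons (Vale.Agent.P032.Lt.q R0Q002.q32_10) q_nil))))))))))))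

def C33 : List ℕ := [0, 4, 8, 12, 16, 20, 24, 216065, 347137, 606209, 737281, 9587078030354, 14405892140058]
theorem p33 : Pat 73 73 TBm TCm (C33.map Fm) R0Q002.P33 R0Q002.I33 := Vale.Agent.P032.Lt.pat_eq (E' := R0Q002.E33) (by decide +kernel) (pat_step (by decide +kernel) (q_cons (Vale.Agent.P032.Lt.q R0Q002.q33_0) (q_cons (Vale.Agent.P032.Lt.q R0Q002.q33_1) (q_cons (Vale.Agent.P032.Lt.q R0Q002.q33_2) (q_cons (Vale.Agent.P032.Lt.q R0Q002.q33_3) (q_cons (Vale.Agent.P032.Lt.q R0Q002.q33_4) (q_cons (Vale.Agent.P032.Lt.q R0Q002.q33_5) (q_cons (Vale.Agent.P032.Lt.q R0Q002.q33_6) (q_cons (Vale.Agent.P032.Lt.q R0Q002.q33_7) (q_cons (Vale.Agent.P032.Lt.q R0Q002.q33_8) (q_cons (Vale.Agent.P032.Lt.q R0Q002.q33_9) (q_cons (Vale.Agent.P032.Lt.q R0Q002.q33_10) (q_cons (Vale.Agent.P032.Lt.q R0Q002.q33_11) (q_cons (Vale.Agent.P032.Lt.q R0Q002.q33_12) q_nil))))))))))))))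

def C34 : List ℕ := [0, 4, 8, 12, 16, 20, 24, 82945, 84993, 214017, 216065, 345089, 347137, 349185, 478209, 606209, 609281, 737281, 4651742092298, 9102290021402, 9599275981834, 9599366161426, 13379046431754, 24275583195142, 24278391937030, 24278404519942, 24278404651014, 24278459045894]
theorem p34 : Pat 73 73 TBm TCm (C34.map Fm) R0Q002.P34 R0Q002.I34 := Vale.Agent.P032.Lt.pat_eq (E' := R0Q002.E34) (by decide +kernel) (pat_step (by decide +kernel) (q_cons (Vale.Agent.P032.Lt.q R0Q002.q34_0) q_nil))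

def C35 : List ℕ := [0, 4, 8, 12, 16, 20, 24, 82945, 84993, 214017, 347137, 476161, 607233, 611329, 617473, 737281, 4641385962506, 14062015437834, 14062078352394, 17760946971666, 22157917905938, 23729709864966, 23729722447878, 23729776973830, 24275583195142]
theorem p35 : Pat 73 73 TBm TCm (C35.map Fm) R0Q003.P35 R0Q003.I35 := Vale.Agent.P032.Lt.pat_eq (E' := R0Q003.E35) (by decide +kernel) (pat_step (by decide +kernel) (q_cons (Vale.Agent.P032.Lt.q R0Q003.q35_0) (q_cons (Vale.Agent.P032.Lt.q R0Q003.q35_1) (q_cons (Vale.Agent.P032.Lt.q R0Q003.q35_2) (q_cons (Vale.Agent.P032.Lt.q R0Q003.q35_3) (q_cons (Vale.Agent.P032.Lt.q R0Q003.q35_4) (q_cons (Vale.Agent.P032.Lt.q R0Q003.q35_5) (q_cons (Vale.Agent.P032.Lt.q R0Q003.q35_6) (q_cons (Vale.Agent.P032.Lt.q R0Q003.q35_7) q_nil)))))))))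

def C36 : List ℕ := [0, 4, 8, 12, 16, 20, 24, 81921, 214017, 220161, 345089, 476161, 607233, 742401, 9715834897442, 14109056654346, 14650155424778, 23193275821082]
theorem p36 : Pat 73 73 TBm TCm (C36.map Fm) R0Q003.P36 R0Q003.I36 := Vale.Agent.P032.Lt.pat_eq (E' := R0Q003.E36) (by decide +kernel) (pat_step (by decide +kernel) (q_cons (Vale.Agent.P032.Lt.q R0Q003.q36_0) (q_cons (Vale.Agent.P032.Lt.q R0Q003.q36_1) (q_cons (Vale.Agent.P032.Lt.q R0Q003.q36_2) (q_cons (Vale.Agent.P032.Lt.q R0Q003.q36_3) (q_cons (Vale.Agent.P032.Lt.q R0Q003.q36_4) q_nil))))))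

def C37 : List ℕ := [0, 4, 8, 12, 16, 20, 24, 216065, 611329, 741377, 9664147317778, 23376476203030, 23376478038038, 23376478300182]
theorem p37 : Pat 73 73 TBm TCm (C37.map Fm) R0Q003.P37 R0Q003.I37 := Vale.Agent.P032.Lt.pat_eq (E' := R0Q003.E37) (by decide +kernel) (pat_step (by decide +kernel) (q_cons (Vale.Agent.P032.Lt.q R0Q003.q37_0) (q_cons (Vale.Agent.P032.Lt.q R0Q003.q37_1) (q_cons (Vale.Agent.P032.Lt.q R0Q003.q37_2) (q_cons (Vale.Agent.P032.Lt.q R0Q003.q37_3) (q_cons (Vale.Agent.P032.Lt.q R0Q003.q37_4) (q_cons (Vale.Agent.P032.Lt.q R0Q003.q37_5) (q_cons (Vale.Agent.P032.Lt.q R0Q003.q37_6) q_nil))))))))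

def C38 : List ℕ := [0, 4, 8, 12, 16, 20, 24, 347137, 353281, 9115466681386, 9651955520562]
theorem p38 : Pat 73 73 TBm TCm (C38.map Fm) R0Q003.P38 R0Q003.I38 := Vale.Agent.P032.Lt.pat_eq (E' := R0Q003.E38) (by decide +kernel) (pat_step (by decide +kernel) (q_cons (Vale.Agent.P032.Lt.q R0Q003.q38_0) (q_cons (Vale.Agent.P032.Lt.q R0Q003.q38_1) (q_cons (Vale.Agent.P032.Lt.q R0Q003.q38_2) (q_cons (Vale.Agent.P032.Lt.q R0Q003.q38_3) (q_cons (Vale.Agent.P032.Lt.q R0Q003.q38_4) (q_cons (Vale.Agent.P032.Lt.q R0Q003.q38_5) (q_cons (Vale.Agent.P032.Lt.q R0Q003.q38_6) (q_cons (Vale.Agent.P032.Lt.q R0Q003.q38_7) (q_cons (Vale.Agent.P032.Lt.q R0Q003.q38_8) (q_cons (Vale.Agent.P032.Lt.q R0Q003.q38_9) q_nil)))))))))))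

def C39 : List ℕ := [0, 4, 8, 12, 16, 20, 24, 86017, 217089, 218113, 348161, 349185, 480257, 742401, 4641427384342, 4649907480598, 9046880118806, 13916481088538, 22715123067930, 23196121656346]
theorem p39 : Pat 73 73 TBm TCm (C39.map Fm) R0Q003.P39 R0Q003.I39 := Vale.Agent.P032.Lt.pat_eq (E' := R0Q003.E39) (by decide +kernel) (pat_step (by decide +kernel) (q_cons (Vale.Agent.P032.Lt.q R0Q003.q39_0) q_nil))

def C40 : List ℕ := [0, 4, 8, 12, 16, 20, 24, 606209, 737281, 24278391937030, 24278404519942, 24278459045894, 24338546644998, 24338555033606, 24338613753862]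
theorem p40 : Pat 73 73 TBm TCm (C40.map Fm) R0Q003.P40 R0Q003.I40 := Vale.Agent.P032.Lt.pat_eq (E' := R0Q003.E40) (by decide +kernel) (pat_step (by decide +kernel) (q_cons (Vale.Agent.P032.Lt.q R0Q003.q40_0) (q_cons (Vale.Agent.P032.Lt.q R0Q003.q40_1) (q_cons (Vale.Agent.P032.Lt.q R0Q003.q40_2) (q_cons (Vale.Agent.P032.Lt.q R0Q003.q40_3) (q_cons (Vale.Agent.P032.Lt.q R0Q003.q40_4) (q_cons (Vale.Agent.P032.Lt.q R0Q003.q40_5) (q_cons (Vale.Agent.P032.Lt.q R0Q003.q40_6) (q_cons (Vale.Agent.P032.Lt.q R0Q003.q40_7) (q_cons (Vale.Agent.P032.Lt.q R0Q003.q40_8) (q_cons (Vale.Agent.P032.Lt.q R0Q003.q40_9) q_nil)))))))))))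

def C41 : List ℕ := [0, 4, 8, 12, 16, 20, 24, 89089, 606209, 9169891705890]
theorem p41 : Pat 73 73 TBm TCm (C41.map Fm) R0Q003.P41 R0Q003.I41 := Vale.Agent.P032.Lt.pat_eq (E' := R0Q003.E41) (by decide +kernel) (pat_step (by decide +kernel) (q_cons (Vale.Agent.P032.Lt.q R0Q003.q41_0) (q_cons (Vale.Agent.P032.Lt.q R0Q003.q41_1) (q_cons (Vale.Agent.P032.Lt.q R0Q003.q41_2) (q_cons (Vale.Agent.P032.Lt.q R0Q003.q41_3) (q_cons (Vale.Agent.P032.Lt.q R0Q003.q41_4) (q_cons (Vale.Agent.P032.Lt.q R0Q003.q41_5) (q_cons (Vale.Agent.P032.Lt.q R0Q003.q41_6) (q_cons (Vale.Agent.P032.Lt.q R0Q003.q41_7) (q_cons (Vale.Agent.P032.Lt.q R0Q003.q41_8) (q_cons (Vale.Agent.P032.Lt.q R0Q003.q41_9) (q_cons (Vale.Agent.P032.Lt.q R0Q003.q41_10) q_nil))))))))))))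

theorem p42 : Pat 73 73 TBm TCm (CB.map Fm) R0Q003.P42 R0Q003.I42 := Vale.Agent.P032.Lt.pat_eq (E' := R0Q003.E) eB (pat_step (by decide +kernel) (q_cons (Vale.Agent.P032.Lt.q R0Q003.q42_0) (q_cons (Vale.Agent.P032.Lt.q R0Q003.q42_1) (q_cons (Vale.Agent.P032.Lt.q R0Q003.q42_2) (q_cons (Vale.Agent.P032.Lt.q R0Q003.q42_3) (q_cons (Vale.Agent.P032.Lt.q R0Q003.q42_4) (q_cons (Vale.Agent.P032.Lt.q R0Q003.q42_5) (q_cons (Vale.Agent.P032.Lt.q R0Q003.q42_6) (q_cons (Vale.Agent.P032.Lt.q R0Q003.q42_7) (q_cons (Vale.Agent.P032.Lt.q R0Q003.q42_8) (q_cons (Vale.Agent.P032.Lt.q R0Q003.q42_9) (q_cons (Vale.Agent.P032.Lt.q R0Q003.q42_10) (q_cons (Vale.Agent.P032.Lt.q R0Q003.q42_11) q_nil)))))))))))))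

def C43 : List ℕ := [0, 4, 8, 12, 16, 20, 24, 82945, 212993, 475137, 737281]
theorem p43 : Pat 73 73 TBm TCm (C43.map Fm) R0Q003.P43 R0Q003.I43 := Vale.Agent.P032.Lt.pat_eq (E' := R0Q003.E43) (by decide +kernel) (pat_step (by decide +kernel) (q_cons (Vale.Agent.P032.Lt.q R0Q003.q43_0) (q_cons (Vale.Agent.P032.Lt.q R0Q003.q43_1) (q_cons (Vale.Agent.P032.Lt.q R0Q003.q43_2) (q_cons (Vale.Agent.P032.Lt.q R0Q003.q43_3) (q_cons (Vale.Agent.P032.Lt.q R0Q003.q43_4) (q_cons (Vale.Agent.P032.Lt.q R0Q003.q43_5) (q_cons (Vale.Agent.P032.Lt.q R0Q003.q43_6) (q_cons (Vale.Agent.P032.Lt.q R0Q003.q43_7) (q_cons (Vale.Agent.P032.Lt.q R0Q003.q43_8) (q_cons (Vale.Agent.P032.Lt.q R0Q003.q43_9) q_nil)))))))))))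

theorem p44 : Pat 73 73 TBm TCm (CB.map Fm) R0Q003.P44 R0Q003.I44 := Vale.Agent.P032.Lt.pat_eq (E' := R0Q003.E) eB (pat_step (by decide +kernel) (q_cons (Vale.Agent.P032.Lt.q R0Q003.q44_0) (q_cons (Vale.Agent.P032.Lt.q R0Q003.q44_1) (q_cons (Vale.Agent.P032.Lt.q R0Q003.q44_2) (q_cons (Vale.Agent.P032.Lt.q R0Q003.q44_3) q_nil)))))

def C45 : List ℕ := [0, 4, 8, 12, 16, 20, 24, 214017, 475137, 737281]
theorem p45 : Pat 73 73 TBm TCm (C45.map Fm) R0Q003.P45 R0Q003.I45 := Vale.Agent.P032.Lt.pat_eq (E' := R0Q003.E45) (by decide +kernel) (pat_step (by decide +kernel) (q_cons (Vale.Agent.P032.Lt.q R0Q003.q45_0) q_nil))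

theorem p46 : Pat 73 73 TBm TCm (CB.map Fm) R0Q003.P46 R0Q003.I46 := Vale.Agent.P032.Lt.pat_eq (E' := R0Q003.E) eB (pat_step (by decide +kernel) (q_cons (Vale.Agent.P032.Lt.q R0Q003.q46_0) q_nil))

def C47 : List ℕ := [0, 4, 8, 12, 16, 20, 24, 347137, 349185, 480257, 606209, 9102290021402, 19044295207962, 24275583457286, 24275583719430]
theorem p47 : Pat 73 73 TBm TCm (C47.map Fm) R0Q003.P47 R0Q003.I47 := Vale.Agent.P032.Lt.pat_eq (E' := R0Q003.E47) (by decide +kernel) (pat_step (by decide +kernel) (q_cons (Vale.Agent.P032.Lt.q R0Q003.q47_0) (q_cons (Vale.Agent.P032.Lt.q R0Q003.q47_1) q_nil)))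

def C48 : List ℕ := [0, 4, 8, 12, 16, 20, 24, 741377, 24352710944790]
theorem p48 : Pat 73 73 TBm TCm (C48.map Fm) R0Q003.P48 R0Q003.I48 := Vale.Agent.P032.Lt.pat_eq (E' := R0Q003.E48) (by decide +kernel) (pat_step (by decide +kernel) (q_cons (Vale.Agent.P032.Lt.q R0Q003.q48_0) (q_cons (Vale.Agent.P032.Lt.q R0Q003.q48_1) (q_cons (Vale.Agent.P032.Lt.q R0Q003.q48_2) (q_cons (Vale.Agent.P032.Lt.q R0Q003.q48_3) (q_cons (Vale.Agent.P032.Lt.q R0Q003.q48_4) (q_cons (Vale.Agent.P032.Lt.q R0Q003.q48_5) (q_cons (Vale.Agent.P032.Lt.q R0Q003.q48_6) (q_cons (Vale.Agent.P032.Lt.q R0Q003.q48_7) (q_cons (Vale.Agent.P032.Lt.q R0Q003.q48_8) (q_cons (Vale.Agent.P032.Lt.q R0Q003.q48_9) (q_cons (Vale.Agent.P032.Lt.q R0Q003.q48_10) (q_cons (Vale.Agent.P032.Lt.q R0Q003.q48_11) (q_cons (Vale.Agent.P032.Lt.q R0Q003.q48_12) (q_cons (Vale.Agent.P032.Lt.q R0Q003.q48_13) q_nil)))))))))))))))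

theorem p49 : Pat 73 73 TBm TCm (CB.map Fm) R0Q003.P49 R0Q003.I49 := Vale.Agent.P032.Lt.pat_eq (E' := R0Q003.E) eB (pat_step (by decide +kernel) (q_cons (Vale.Agent.P032.Lt.q R0Q003.q49_0) (q_cons (Vale.Agent.P032.Lt.q R0Q003.q49_1) (q_cons (Vale.Agent.P032.Lt.q R0Q003.q49_2) (q_cons (Vale.Agent.P032.Lt.q R0Q003.q49_3) (q_cons (Vale.Agent.P032.Lt.q R0Q003.q49_4) (q_cons (Vale.Agent.P032.Lt.q R0Q003.q49_5) (q_cons (Vale.Agent.P032.Lt.q R0Q003.q49_6) (q_cons (Vale.Agent.P032.Lt.q R0Q003.q49_7) (q_cons (Vale.Agent.P032.Lt.q R0Q003.q49_8) (q_cons (Vale.Agent.P032.Lt.q R0Q003.q49_9) (q_cons (Vale.Agent.P032.Lt.q R0Q003.q49_10) (q_cons (Vale.Agent.P032.Lt.q R0Q003.q49_11) (q_cons (Vale.Agent.P032.Lt.q R0Q003.q49_12) (q_cons (Vale.Agent.P032.Lt.q R0Q003.q49_13) (q_cons (Vale.Agent.P032.Lt.q R0Q003.q49_14) q_nil))))))))))))))))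

def C50 : List ℕ := [0, 4, 8, 12, 16, 20, 24, 89089, 606209, 9169891705890]
theorem p50 : Pat 73 73 TBm TCm (C50.map Fm) R0Q003.P50 R0Q003.I50 := Vale.Agent.P032.Lt.pat_eq (E' := R0Q003.E50) (by decide +kernel) (pat_step (by decide +kernel) (q_cons (Vale.Agent.P032.Lt.q R0Q003.q50_0) (q_cons (Vale.Agent.P032.Lt.q R0Q003.q50_1) (q_cons (Vale.Agent.P032.Lt.q R0Q003.q50_2) (q_cons (Vale.Agent.P032.Lt.q R0Q003.q50_3) (q_cons (Vale.Agent.P032.Lt.q R0Q003.q50_4) (q_cons (Vale.Agent.P032.Lt.q R0Q003.q50_5) (q_cons (Vale.Agent.P032.Lt.q R0Q003.q50_6) (q_cons (Vale.Agent.P032.Lt.q R0Q003.q50_7) (q_cons (Vale.Agent.P032.Lt.q R0Q003.q50_8) (q_cons (Vale.Agent.P032.Lt.q R0Q003.q50_9) (q_cons (Vale.Agent.P032.Lt.q R0Q003.q50_10) (q_cons (Vale.Agent.P032.Lt.q R0Q003.q50_11) (q_cons (Vale.Agent.P032.Lt.q R0Q003.q50_12) (q_cons (Vale.Agent.P032.Lt.q R0Q003.q50_13) q_nil)))))))))))))))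

def C51 : List ℕ := [0, 4, 8, 12, 16, 20, 24, 355329, 607233, 9042137273394, 19355292359690]
theorem p51 : Pat 73 73 TBm TCm (C51.map Fm) R0Q003.P51 R0Q003.I51 := Vale.Agent.P032.Lt.pat_eq (E' := R0Q003.E51) (by decide +kernel) (pat_step (by decide +kernel) (q_cons (Vale.Agent.P032.Lt.q R0Q003.q51_0) (q_cons (Vale.Agent.P032.Lt.q R0Q003.q51_1) q_nil)))

def C52 : List ℕ := [0, 4, 8, 12, 16, 20, 24, 81921, 212993, 344065, 747521, 9599294199814, 9719595227142]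
theorem p52 : Pat 73 73 TBm TCm (C52.map Fm) R0Q003.P52 R0Q003.I52 := Vale.Agent.P032.Lt.pat_eq (E' := R0Q003.E52) (by decide +kernel) (pat_step (by decide +kernel) (q_cons (Vale.Agent.P032.Lt.q R0Q003.q52_0) (q_cons (Vale.Agent.P032.Lt.q R0Q003.q52_1) (q_cons (Vale.Agent.P032.Lt.q R0Q003.q52_2) q_nil))))

theorem p53 : Pat 73 73 TBm TCm (CB.map Fm) R0Q003.P53 R0Q003.I53 := Vale.Agent.P032.Lt.pat_eq (E' := R0Q003.E) eB (pat_step (by decide +kernel) (q_cons (Vale.Agent.P032.Lt.q R0Q003.q53_0) q_nil))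

def C54 : List ℕ := [0, 4, 8, 12, 16, 20, 24, 344065, 347137, 475137, 737281, 23729722447878, 23729785362438]
theorem p54 : Pat 73 73 TBm TCm (C54.map Fm) R0Q003.P54 R0Q003.I54 := Vale.Agent.P032.Lt.pat_eq (E' := R0Q003.E54) (by decide +kernel) (pat_step (by decide +kernel) (q_cons (Vale.Agent.P032.Lt.q R0Q003.q54_0) (q_cons (Vale.Agent.P032.Lt.q R0Q003.q54_1) (q_cons (Vale.Agent.P032.Lt.q R0Q003.q54_2) (q_cons (Vale.Agent.P032.Lt.q R0Q003.q54_3) q_nil)))))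

def C55 : List ℕ := [0, 4, 8, 12, 16, 20, 24, 214017, 218113, 220161, 349185, 476161, 607233, 611329, 738305, 9595566517274, 9599325662234, 13924867327010, 13924869424162, 14105297896482, 14109056916490, 14109057041442, 14650205231110, 14650207197190, 18325621922826, 18506031520778, 18911862156314, 22165455334426, 24278408846346]
theorem p55 : Pat 73 73 TBm TCm (C55.map Fm) R0Q004.P55 R0Q004.I55 := Vale.Agent.P032.Lt.pat_eq (E' := R0Q004.E55) (by decide +kernel) (pat_step (by decide +kernel) (q_cons (Vale.Agent.P032.Lt.q R0Q004.q55_0) (q_cons (Vale.Agent.P032.Lt.q R0Q004.q55_1) (q_cons (Vale.Agent.P032.Lt.q R0Q004.q55_2) (q_cons (Vale.Agent.P032.Lt.q R0Q004.q55_3) (q_cons (Vale.Agent.P032.Lt.q R0Q004.q55_4) (q_cons (Vale.Agent.P032.Lt.q R0Q004.q55_5) (q_cons (Vale.Agent.P032.Lt.q R0Q004.q55_6) (q_cons (Vale.Agent.P032.Lt.q R0Q004.q55_7) (q_cons (Vale.Agent.P032.Lt.q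 R0Q004.q55_8) (q_cons (Vale.Agent.P032.Lt.q R0Q004.q55_9) (q_cons (Vale.Agent.P032.Lt.q R0Q004.q55_10) (q_cons (Vale.Agent.P032.Lt.q R0Q004.q55_11) (q_cons (Vale.Agent.P032.Lt.q R0Q004.q55_12) (q_cons (Vale.Agent.P032.Lt.q R0Q004.q55_13) (q_cons (Vale.Agent.P032.Lt.q R0Q004.q55_14) (q_cons (Vale.Agent.P032.Lt.q R0Q004.q55_15) (q_cons (Vale.Agent.P032.Lt.q R0Q004.q55_16) (q_cons (Vale.Agent.P032.Lt.q R0Q004.q55_17) (q_cons (Vale.Agent.P032.Lt.q R0Q004.q55_18) (q_cons (Vale.Agent.P032.Lt.q R0Q004.q55_19) (q_cons (Vale.Agent.P032.Lt.q R0Q004.q55_20) (q_cons (Vale.Agent.P032.Lt.q R0Q004.q55_21) (q_cons (Vale.Agent.P032.Lt.q R0Q004.q55_22) (q_cons (Vale.Agent.P032.Lt.q R0Q004.q55_23) (q_cons (Vale.Agent.P032.Lt.q R0Q004.q55_24) (q_cons (Vale.Agent.P032.Lt.q R0Q004.q55_25) (q_cons (Vale.Agent.P032.Lt.q R0Q004.q55_26) (q_cons (Vale.Agent.P032.Lt.q R0Q004.q55_27) q_nil)))))))))))))))))))))))))))))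

def C56 : List ℕ := [0, 4, 8, 12, 16, 20, 24, 91137, 347137, 353281, 9115466681386]
theorem p56 : Pat 73 73 TBm TCm (C56.map Fm) R0Q004.P56 R0Q004.I56 := Vale.Agent.P032.Lt.pat_eq (E' := R0Q004.E56) (by decide +kernel) (pat_step (by decide +kernel) (q_cons (Vale.Agent.P032.Lt.q R0Q004.q56_0) (q_cons (Vale.Agent.P032.Lt.q R0Q004.q56_1) (q_cons (Vale.Agent.P032.Lt.q R0Q004.q56_2) (q_cons (Vale.Agent.P032.Lt.q R0Q004.q56_3) (q_cons (Vale.Agent.P032.Lt.q R0Q004.q56_4) (q_cons (Vale.Agent.P032.Lt.q R0Q004.q56_5) (q_cons (Vale.Agent.P032.Lt.q R0Q004.q56_6) (q_cons (Vale.Agent.P032.Lt.q R0Q004.q56_7) (q_cons (Vale.Agent.P032.Lt.q R0Q004.q56_8) q_nil))))))))))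

def C57 : List ℕ := [0, 4, 8, 12, 16, 20, 24, 89089, 212993, 606209, 737281, 9170004952098, 17963948655650]
theorem p57 : Pat 73 73 TBm TCm (C57.map Fm) R0Q004.P57 R0Q004.I57 := Vale.Agent.P032.Lt.pat_eq (E' := R0Q004.E57) (by decide +kernel) (pat_step (by decide +kernel) (q_cons (Vale.Agent.P032.Lt.q R0Q004.q57_0) (q_cons (Vale.Agent.P032.Lt.q R0Q004.q57_1) (q_cons (Vale.Agent.P032.Lt.q R0Q004.q57_2) (q_cons (Vale.Agent.P032.Lt.q R0Q004.q57_3) (q_cons (Vale.Agent.P032.Lt.q R0Q004.q57_4) q_nil))))))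

theorem p58 : Pat 73 73 TBm TCm (CB.map Fm) R0Q004.P58 R0Q004.I58 := Vale.Agent.P032.Lt.pat_eq (E' := R0Q004.E) eB (pat_step (by decide +kernel) (q_cons (Vale.Agent.P032.Lt.q R0Q004.q58_0) (q_cons (Vale.Agent.P032.Lt.q R0Q004.q58_1) (q_cons (Vale.Agent.P032.Lt.q R0Q004.q58_2) (q_cons (Vale.Agent.P032.Lt.q R0Q004.q58_3) (q_cons (Vale.Agent.P032.Lt.q R0Q004.q58_4) (q_cons (Vale.Agent.P032.Lt.q R0Q004.q58_5) (q_cons (Vale.Agent.P032.Lt.q R0Q004.q58_6) (q_cons (Vale.Agent.P032.Lt.q R0Q004.q58_7) (q_cons (Vale.Agent.P032.Lt.q R0Q004.q58_8) (q_cons (Vale.Agent.P032.Lt.q R0Q004.q58_9) (q_cons (Vale.Agent.P032.Lt.q R0Q004.q58_10) (q_cons (Vale.Agent.P032.Lt.q R0Q004.q58_11) (q_cons (Vale.Agent.P032.Lt.q R0Q004.q58_12) (q_cons (Vale.Agent.P032.Lt.q R0Q004.q58_13) (q_cons (Vale.Agent.P032.Lt.q R0Q004.q58_14) (q_cons (Vale.Agent.P032.Lt.q R0Q004.q58_15) (q_cons (Vale.Agent.P032.Lt.q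 R0Q004.q58_16) (q_cons (Vale.Agent.P032.Lt.q R0Q004.q58_17) (q_cons (Vale.Agent.P032.Lt.q R0Q004.q58_18) (q_cons (Vale.Agent.P032.Lt.q R0Q004.q58_19) (q_cons (Vale.Agent.P032.Lt.q R0Q004.q58_20) (q_cons (Vale.Agent.P032.Lt.q R0Q004.q58_21) (q_cons (Vale.Agent.P032.Lt.q R0Q004.q58_22) (q_cons (Vale.Agent.P032.Lt.q R0Q004.q58_23) (q_cons (Vale.Agent.P032.Lt.q R0Q004.q58_24) (q_cons (Vale.Agent.P032.Lt.q R0Q004.q58_25) (q_cons (Vale.Agent.P032.Lt.q R0Q004.q58_26) (q_cons (Vale.Agent.P032.Lt.q R0Q004.q58_27) (q_cons (Vale.Agent.P032.Lt.q R0Q004.q58_28) (q_cons (Vale.Agent.P032.Lt.q R0Q004.q58_29) (q_cons (Vale.Agent.P032.Lt.q R0Q004.q58_30) (q_cons (Vale.Agent.P032.Lt.q R0Q004.q58_31) (q_cons (Vale.Agent.P032.Lt.q R0Q004.q58_32) (q_cons (Vale.Agent.P032.Lt.q R0Q004.q58_33) q_nil)))))))))))))))))))))))))))))))))))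

theorem p59 : Pat 73 73 TBm TCm (CB.map Fm) R0Q004.P59 R0Q004.I59 := Vale.Agent.P032.Lt.pat_eq (E' := R0Q004.E) eB (pat_step (by decide +kernel) (q_cons (Vale.Agent.P032.Lt.q R0Q004.q59_0) q_nil))

def C60 : List ℕ := [0, 4, 8, 12, 16, 20, 24, 218113, 475137]
theorem p60 : Pat 73 73 TBm TCm (C60.map Fm) R0Q004.P60 R0Q004.I60 := Vale.Agent.P032.Lt.pat_eq (E' := R0Q004.E60) (by decide +kernel) (pat_step (by decide +kernel) (q_cons (Vale.Agent.P032.Lt.q R0Q004.q60_0) (q_cons (Vale.Agent.P032.Lt.q R0Q004.q60_1) (q_cons (Vale.Agent.P032.Lt.q R0Q004.q60_2) (q_cons (Vale.Agent.P032.Lt.q R0Q004.q60_3) (q_cons (Vale.Agent.P032.Lt.q R0Q004.q60_4) (q_cons (Vale.Agent.P032.Lt.q R0Q004.q60_5) (q_cons (Vale.Agent.P032.Lt.q R0Q004.q60_6) (q_cons (Vale.Agent.P032.Lt.q R0Q004.q60_7) (q_cons (Vale.Agent.P032.Lt.q R0Q004.q60_8) (q_cons (Vale.Agent.P032.Lt.q R0Q004.q60_9) (q_cons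 (Vale.Agent.P032.Lt.q R0Q004.q60_10) (q_cons (Vale.Agent.P032.Lt.q R0Q004.q60_11) (q_cons (Vale.Agent.P032.Lt.q R0Q004.q60_12) (q_cons (Vale.Agent.P032.Lt.q R0Q004.q60_13) (q_cons (Vale.Agent.P032.Lt.q R0Q004.q60_14) (q_cons (Vale.Agent.P032.Lt.q R0Q004.q60_15) q_nil)))))))))))))))))

theorem p61 : Pat 73 73 TBm TCm (CB.map Fm) R0Q004.P61 R0Q004.I61 := Vale.Agent.P032.Lt.pat_eq (E' := R0Q004.E) eB (pat_step (by decide +kernel) (q_cons (Vale.Agent.P032.Lt.q R0Q004.q61_0) (q_cons (Vale.Agent.P032.Lt.q R0Q004.q61_1) (q_cons (Vale.Agent.P032.Lt.q R0Q004.q61_2) (q_cons (Vale.Agent.P032.Lt.q R0Q004.q61_3) (q_cons (Vale.Agent.P032.Lt.q R0Q004.q61_4) q_nil))))))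

def C62 : List ℕ := [0, 4, 8, 12, 16, 20, 24, 82945, 212993, 347137, 606209, 737281, 4641385962506]
theorem p62 : Pat 73 73 TBm TCm (C62.map Fm) R0Q004.P62 R0Q004.I62 := Vale.Agent.P032.Lt.pat_eq (E' := R0Q004.E62) (by decide +kernel) (pat_step (by decide +kernel) (q_cons (Vale.Agent.P032.Lt.q R0Q004.q62_0) (q_cons (Vale.Agent.P032.Lt.q R0Q004.q62_1) (q_cons (Vale.Agent.P032.Lt.q R0Q004.q62_2) q_nil))))

def C63 : List ℕ := [0, 4, 8, 12, 16, 20, 24, 82945, 212993, 214017, 344065, 475137, 738305, 9587047094278, 19602412364818, 22232190376970, 22782752676874]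
theorem p63 : Pat 73 73 TBm TCm (C63.map Fm) R0Q004.P63 R0Q004.I63 := Vale.Agent.P032.Lt.pat_eq (E' := R0Q004.E63) (by decide +kernel) (pat_step (by decide +kernel) (q_cons (Vale.Agent.P032.Lt.q R0Q004.q63_0) q_nil))

def C64 : List ℕ := [0, 4, 8, 12, 16, 20, 24, 82945, 84993, 212993, 216065, 347137, 475137, 737281, 741377, 9115400102930, 9115511514130, 9664147317778, 9664193455122, 13513333627914, 17774140152842, 23373656844310, 23373658941462, 23373660121110, 23376476203030]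
theorem p64 : Pat 73 73 TBm TCm (C64.map Fm) R0Q004.P64 R0Q004.I64 := Vale.Agent.P032.Lt.pat_eq (E' := R0Q004.E64) (by decide +kernel) (pat_step (by decide +kernel) (q_cons (Vale.Agent.P032.Lt.q R0Q004.q64_0) (q_cons (Vale.Agent.P032.Lt.q R0Q004.q64_1) (q_cons (Vale.Agent.P032.Lt.q R0Q004.q64_2) (q_cons (Vale.Agent.P032.Lt.q R0Q004.q64_3) (q_cons (Vale.Agent.P032.Lt.q R0Q004.q64_4) (q_cons (Vale.Agent.P032.Lt.q R0Q004.q64_5) q_nil)))))))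

def C65 : List ℕ := [0, 4, 8, 12, 16, 20, 24, 84993, 212993, 478209, 606209, 737281, 9046813008914]
theorem p65 : Pat 73 73 TBm TCm (C65.map Fm) R0Q004.P65 R0Q004.I65 := Vale.Agent.P032.Lt.pat_eq (E' := R0Q004.E65) (by decide +kernel) (pat_step (by decide +kernel) (q_cons (Vale.Agent.P032.Lt.q R0Q004.q65_0) (q_cons (Vale.Agent.P032.Lt.q R0Q004.q65_1) (q_cons (Vale.Agent.P032.Lt.q R0Q004.q65_2) (q_cons (Vale.Agent.P032.Lt.q R0Q004.q65_3) q_nil)))))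

theorem p66 : Pat 73 73 TBm TCm (CB.map Fm) R0Q004.P66 R0Q004.I66 := Vale.Agent.P032.Lt.pat_eq (E' := R0Q004.E) eB (pat_step (by decide +kernel) (q_cons (Vale.Agent.P032.Lt.q R0Q004.q66_0) q_nil))

def C67 : List ℕ := [0, 4, 8, 12, 16, 20, 24, 91137, 347137, 355329, 480257, 606209, 737281, 9591774471186, 9647256720434, 24278400325638, 24278450657286, 24278459045894, 24278467434502, 24338546644998, 24338613753862, 24338622142470]
theorem p67 : Pat 73 73 TBm TCm (C67.map Fm) R0Q004.P67 R0Q004.I67 := Vale.Agent.P032.Lt.pat_eq (E' := R0Q004.E67) (by decide +kernel) (pat_step (by decide +kernel) (q_cons (Vale.Agent.P032.Lt.q R0Q004.q67_0) (q_cons (Vale.Agent.P032.Lt.q R0Q004.q67_1) (q_cons (Vale.Agent.P032.Lt.q R0Q004.q67_2) (q_cons (Vale.Agent.P032.Lt.q R0Q004.q67_3) (q_cons (Vale.Agent.P032.Lt.q R0Q004.q67_4) (q_cons (Vale.Agent.P032.Lt.q R0Q004.q67_5) (q_cons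 (Vale.Agent.P032.Lt.q R0Q004.q67_6) (q_cons (Vale.Agent.P032.Lt.q R0Q004.q67_7) q_nil)))))))))

theorem p68 : Pat 73 73 TBm TCm (CB.map Fm) R0Q004.P68 R0Q004.I68 := Vale.Agent.P032.Lt.pat_eq (E' := R0Q004.E) eB (pat_step (by decide +kernel) (q_cons (Vale.Agent.P032.Lt.q R0Q004.q68_0) (q_cons (Vale.Agent.P032.Lt.q R0Q004.q68_1) (q_cons (Vale.Agent.P032.Lt.q R0Q004.q68_2) (q_cons (Vale.Agent.P032.Lt.q R0Q004.q68_3) (q_cons (Vale.Agent.P032.Lt.q R0Q004.q68_4) q_nil))))))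

def C69 : List ℕ := [0, 4, 8, 12, 16, 20, 24, 82945, 216065, 347137, 478209, 737281, 9595564155922, 19422016400410]
theorem p69 : Pat 73 73 TBm TCm (C69.map Fm) R0Q005.P69 R0Q005.I69 := Vale.Agent.P032.Lt.pat_eq (E' := R0Q005.E69) (by decide +kernel) (pat_step (by decide +kernel) (q_cons (Vale.Agent.P032.Lt.q R0Q005.q69_0) (q_cons (Vale.Agent.P032.Lt.q R0Q005.q69_1) (q_cons (Vale.Agent.P032.Lt.q R0Q005.q69_2) (q_cons (Vale.Agent.P032.Lt.q R0Q005.q69_3) (q_cons (Vale.Agent.P032.Lt.q R0Q005.q69_4) (q_cons (Vale.Agent.P032.Lt.q R0Q005.q69_5) (q_cons (Vale.Agent.P032.Lt.q R0Q005.q69_6) (q_cons (Vale.Agent.P032.Lt.q R0Q005.q69_7) (q_cons (Vale.Agent.P032.Lt.q R0Q005.q69_8) (q_cons (Vale.Agent.P032.Lt.q R0Q005.q69_9) (q_cons (Vale.Agent.P032.Lt.q R0Q005.q69_10) (q_cons (Vale.Agent.P032.Lt.q R0Q005.q69_11) (q_cons (Vale.Agent.P032.Lt.q R0Q005.q69_12) (q_cons (Vale.Agent.P032.Lt.q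 R0Q005.q69_13) (q_cons (Vale.Agent.P032.Lt.q R0Q005.q69_14) (q_cons (Vale.Agent.P032.Lt.q R0Q005.q69_15) (q_cons (Vale.Agent.P032.Lt.q R0Q005.q69_16) (q_cons (Vale.Agent.P032.Lt.q R0Q005.q69_17) (q_cons (Vale.Agent.P032.Lt.q R0Q005.q69_18) (q_cons (Vale.Agent.P032.Lt.q R0Q005.q69_19) (q_cons (Vale.Agent.P032.Lt.q R0Q005.q69_20) (q_cons (Vale.Agent.P032.Lt.q R0Q005.q69_21) (q_cons (Vale.Agent.P032.Lt.q R0Q005.q69_22) q_nil))))))))))))))))))))))))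

def C70 : List ℕ := [0, 4, 8, 12, 16, 20, 24, 81921, 87041, 212993, 214017, 344065, 349185, 351233, 480257, 607233, 738305, 9169997884442, 9175608542242, 13928651516954, 14582602230810, 22163606297610, 22715105762314, 24338506931210, 24338574040074]
theorem p70 : Pat 73 73 TBm TCm (C70.map Fm) R0Q005.P70 R0Q005.I70 := Vale.Agent.P032.Lt.pat_eq (E' := R0Q005.E70) (by decide +kernel) (pat_step (by decide +kernel) (q_cons (Vale.Agent.P032.Lt.q R0Q005.q70_0) (q_cons (Vale.Agent.P032.Lt.q R0Q005.q70_1) (q_cons (Vale.Agent.P032.Lt.q R0Q005.q70_2) (q_cons (Vale.Agent.P032.Lt.q R0Q005.q70_3) (q_cons (Vale.Agent.P032.Lt.q R0Q005.q70_4) (q_cons (Vale.Agent.P032.Lt.q R0Q005.q70_5) (q_cons (Vale.Agent.P032.Lt.q R0Q005.q70_6) (q_cons (Vale.Agent.P032.Lt.q R0Q005.q70_7) (q_cons (Vale.Agent.P032.Lt.q R0Q005.q70_8) (q_cons (Vale.Agent.P032.Lt.q R0Q005.q70_9) q_nil)))))))))))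

theorem p71 : Pat 73 73 TBm TCm (CB.map Fm) R0Q005.P71 R0Q005.I71 := Vale.Agent.P032.Lt.pat_eq (E' := R0Q005.E) eB (pat_step (by decide +kernel) (q_cons (Vale.Agent.P032.Lt.q R0Q005.q71_0) (q_cons (Vale.Agent.P032.Lt.q R0Q005.q71_1) (q_cons (Vale.Agent.P032.Lt.q R0Q005.q71_2) (q_cons (Vale.Agent.P032.Lt.q R0Q005.q71_3) (q_cons (Vale.Agent.P032.Lt.q R0Q005.q71_4) (q_cons (Vale.Agent.P032.Lt.q R0Q005.q71_5) (q_cons (Vale.Agent.P032.Lt.q R0Q005.q71_6) (q_cons (Vale.Agent.P032.Lt.q R0Q005.q71_7) (q_cons (Vale.Agent.P032.Lt.q R0Q005.q71_8) (q_cons (Vale.Agent.P032.Lt.q R0Q005.q71_9) q_nil)))))))))))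

def C72 : List ℕ := [0, 4, 8, 12, 16, 20, 24, 475137, 737281, 23729709864966, 23729722447878, 23729785362438]
theorem p72 : Pat 73 73 TBm TCm (C72.map Fm) R0Q005.P72 R0Q005.I72 := Vale.Agent.P032.Lt.pat_eq (E' := R0Q005.E72) (by decide +kernel) (pat_step (by decide +kernel) (q_cons (Vale.Agent.P032.Lt.q R0Q005.q72_0) (q_cons (Vale.Agent.P032.Lt.q R0Q005.q72_1) (q_cons (Vale.Agent.P032.Lt.q R0Q005.q72_2) (q_cons (Vale.Agent.P032.Lt.q R0Q005.q72_3) q_nil)))))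

theorem p73 : Pat 73 73 TBm TCm (CB.map Fm) R0Q005.P73 R0Q005.I73 := Vale.Agent.P032.Lt.pat_eq (E' := R0Q005.E) eB (pat_step (by decide +kernel) (q_cons (Vale.Agent.P032.Lt.q R0Q005.q73_0) (q_cons (Vale.Agent.P032.Lt.q R0Q005.q73_1) (q_cons (Vale.Agent.P032.Lt.q R0Q005.q73_2) q_nil))))

def C74 : List ℕ := [0, 4, 8, 12, 16, 20, 24, 91137, 222209, 353281, 355329, 484353, 615425, 13371454475306, 13921078168618, 14397490549810, 14402187646002, 14646398635050, 18393204476970, 18941976466482]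
theorem p74 : Pat 73 73 TBm TCm (C74.map Fm) R0Q005.P74 R0Q005.I74 := Vale.Agent.P032.Lt.pat_eq (E' := R0Q005.E74) (by decide +kernel) (pat_step (by decide +kernel) (q_cons (Vale.Agent.P032.Lt.q R0Q005.q74_0) (q_cons (Vale.Agent.P032.Lt.q R0Q005.q74_1) (q_cons (Vale.Agent.P032.Lt.q R0Q005.q74_2) (q_cons (Vale.Agent.P032.Lt.q R0Q005.q74_3) (q_cons (Vale.Agent.P032.Lt.q R0Q005.q74_4) (q_cons (Vale.Agent.P032.Lt.q R0Q005.q74_5) (q_cons (Vale.Agent.P032.Lt.q R0Q005.q74_6) (q_cons (Vale.Agent.P032.Lt.q R0Q005.q74_7) (q_cons (Vale.Agent.P032.Lt.q R0Q005.q74_8) (q_cons (Vale.Agent.P032.Lt.q R0Q005.q74_9) (q_cons (Vale.Agent.P032.Lt.q R0Q005.q74_10) (q_cons (Vale.Agent.P032.Lt.q R0Q005.q74_11) (q_cons (Vale.Agent.P032.Lt.q R0Q005.q74_12) (q_cons (Vale.Agent.P032.Lt.q R0Q005.q74_13) (q_cons (Vale.Agent.P032.Lt.q R0Q005.q74_14) (q_cons (Vale.Agent.P032.Lt.q R0Q005.q74_15)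 (q_cons (Vale.Agent.P032.Lt.q R0Q005.q74_16) (q_cons (Vale.Agent.P032.Lt.q R0Q005.q74_17) (q_cons (Vale.Agent.P032.Lt.q R0Q005.q74_18) (q_cons (Vale.Agent.P032.Lt.q R0Q005.q74_19) (q_cons (Vale.Agent.P032.Lt.q R0Q005.q74_20) (q_cons (Vale.Agent.P032.Lt.q R0Q005.q74_21) (q_cons (Vale.Agent.P032.Lt.q R0Q005.q74_22) (q_cons (Vale.Agent.P032.Lt.q R0Q005.q74_23) (q_cons (Vale.Agent.P032.Lt.q R0Q005.q74_24) (q_cons (Vale.Agent.P032.Lt.q R0Q005.q74_25) (q_cons (Vale.Agent.P032.Lt.q R0Q005.q74_26) (q_cons (Vale.Agent.P032.Lt.q R0Q005.q74_27) (q_cons (Vale.Agent.P032.Lt.q R0Q005.q74_28) (q_cons (Vale.Agent.P032.Lt.q R0Q005.q74_29) (q_cons (Vale.Agent.P032.Lt.q R0Q005.q74_30) (q_cons (Vale.Agent.P032.Lt.q R0Q005.q74_31) (q_cons (Vale.Agent.P032.Lt.q R0Q005.q74_32) (q_cons (Vale.Agent.P032.Lt.q R0Q005.q74_33) (q_cons (Vale.Agent.P032.Lt.q R0Q005.q74_34) (q_cons (Vale.Agent.P032.Lt.q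 R0Q005.q74_35) (q_cons (Vale.Agent.P032.Lt.q R0Q005.q74_36) (q_cons (Vale.Agent.P032.Lt.q R0Q005.q74_37) (q_cons (Vale.Agent.P032.Lt.q R0Q005.q74_38) (q_cons (Vale.Agent.P032.Lt.q R0Q005.q74_39) (q_cons (Vale.Agent.P032.Lt.q R0Q005.q74_40) (q_cons (Vale.Agent.P032.Lt.q R0Q005.q74_41) (q_cons (Vale.Agent.P032.Lt.q R0Q005.q74_42) (q_cons (Vale.Agent.P032.Lt.q R0Q005.q74_43) (q_cons (Vale.Agent.P032.Lt.q R0Q005.q74_44) (q_cons (Vale.Agent.P032.Lt.q R0Q005.q74_45) (q_cons (Vale.Agent.P032.Lt.q R0Q005.q74_46) (q_cons (Vale.Agent.P032.Lt.q R0Q005.q74_47) (q_cons (Vale.Agent.P032.Lt.q R0Q005.q74_48) (q_cons (Vale.Agent.P032.Lt.q R0Q005.q74_49) q_nil)))))))))))))))))))))))))))))))))))))))))))))))))))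

def C75 : List ℕ := [0, 4, 8, 12, 16, 20, 24, 82945, 347137, 606209, 737281, 4641383865354]
theorem p75 : Pat 73 73 TBm TCm (C75.map Fm) R0Q005.P75 R0Q005.I75 := Vale.Agent.P032.Lt.pat_eq (E' := R0Q005.E75) (by decide +kernel) (pat_step (by decide +kernel) (q_cons (Vale.Agent.P032.Lt.q R0Q005.q75_0) (q_cons (Vale.Agent.P032.Lt.q R0Q005.q75_1) (q_cons (Vale.Agent.P032.Lt.q R0Q005.q75_2) (q_cons (Vale.Agent.P032.Lt.q R0Q005.q75_3) (q_cons (Vale.Agent.P032.Lt.q R0Q005.q75_4) (q_cons (Vale.Agent.P032.Lt.q R0Q005.q75_5) q_nil)))))))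

def C76 : List ℕ := [0, 4, 8, 12, 16, 20, 24, 91137, 212993, 476161, 606209, 737281, 740353]
theorem p76 : Pat 73 73 TBm TCm (C76.map Fm) R0Q006.P76 R0Q006.I76 := Vale.Agent.P032.Lt.pat_eq (E' := R0Q006.E76) (by decide +kernel) (pat_step (by decide +kernel) (q_cons (Vale.Agent.P032.Lt.q R0Q006.q76_0) (q_cons (Vale.Agent.P032.Lt.q R0Q006.q76_1) (q_cons (Vale.Agent.P032.Lt.q R0Q006.q76_2) (q_cons (Vale.Agent.P032.Lt.q R0Q006.q76_3) (q_cons (Vale.Agent.P032.Lt.q R0Q006.q76_4) (q_cons (Vale.Agent.P032.Lt.q R0Q006.q76_5) (q_cons (Vale.Agent.P032.Lt.q R0Q006.q76_6) (q_cons (Vale.Agent.P032.Lt.q R0Q006.q76_7) (q_cons (Vale.Agent.P032.Lt.q R0Q006.q76_8) (q_cons (Vale.Agent.P032.Lt.q R0Q006.q76_9) (q_cons (Vale.Agent.P032.Lt.q R0Q006.q76_10) q_nil))))))))))))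

def C77 : List ℕ := [0, 4, 8, 12, 16, 20, 24, 606209, 737281, 740353, 24275583457286, 24275585292294, 24278402553862, 24278402816006, 24278404913158]
theorem p77 : Pat 73 73 TBm TCm (C77.map Fm) R0Q006.P77 R0Q006.I77 := Vale.Agent.P032.Lt.pat_eq (E' := R0Q006.E77) (by decide +kernel) (pat_step (by decide +kernel) (q_cons (Vale.Agent.P032.Lt.q R0Q006.q77_0) (q_cons (Vale.Agent.P032.Lt.q R0Q006.q77_1) (q_cons (Vale.Agent.P032.Lt.q R0Q006.q77_2) (q_cons (Vale.Agent.P032.Lt.q R0Q006.q77_3) (q_cons (Vale.Agent.P032.Lt.q R0Q006.q77_4) (q_cons (Vale.Agent.P032.Lt.q R0Q006.q77_5) (q_cons (Vale.Agent.P032.Lt.q R0Q006.q77_6) (q_cons (Vale.Agent.P032.Lt.q R0Q006.q77_7) q_nil)))))))))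

theorem p78 : Pat 73 73 TBm TCm (CB.map Fm) R0Q006.P78 R0Q006.I78 := Vale.Agent.P032.Lt.pat_eq (E' := R0Q006.E) eB (pat_step (by decide +kernel) (q_cons (Vale.Agent.P032.Lt.q R0Q006.q78_0) (q_cons (Vale.Agent.P032.Lt.q R0Q006.q78_1) (q_cons (Vale.Agent.P032.Lt.q R0Q006.q78_2) (q_cons (Vale.Agent.P032.Lt.q R0Q006.q78_3) (q_cons (Vale.Agent.P032.Lt.q R0Q006.q78_4) (q_cons (Vale.Agent.P032.Lt.q R0Q006.q78_5) (q_cons (Vale.Agent.P032.Lt.q R0Q006.q78_6) (q_cons (Vale.Agent.P032.Lt.q R0Q006.q78_7) (q_cons (Vale.Agent.P032.Lt.q R0Q006.q78_8) (q_cons (Vale.Agent.P032.Lt.q R0Q006.q78_9) (q_cons (Vale.Agent.P032.Lt.q R0Q006.q78_10) (q_cons (Vale.Agent.P032.Lt.q R0Q006.q78_11) (q_cons (Vale.Agent.P032.Lt.q R0Q006.q78_12) q_nil))))))))))))))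

def C79 : List ℕ := [0, 4, 8, 12, 16, 20, 24, 87041, 218113, 611329, 741377, 22840949958678]
theorem p79 : Pat 73 73 TBm TCm (C79.map Fm) R0Q006.P79 R0Q006.I79 := Vale.Agent.P032.Lt.pat_eq (E' := R0Q006.E79) (by decide +kernel) (pat_step (by decide +kernel) (q_cons (Vale.Agent.P032.Lt.q R0Q006.q79_0) (q_cons (Vale.Agent.P032.Lt.q R0Q006.q79_1) (q_cons (Vale.Agent.P032.Lt.q R0Q006.q79_2) (q_cons (Vale.Agent.P032.Lt.q R0Q006.q79_3) q_nil)))))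

def C80 : List ℕ := [0, 4, 8, 12, 16, 20, 24, 89089, 212993, 344065, 351233, 606209, 9098495476770, 9102319895586, 9651907549190, 9651909646342, 9651970463750, 18791597955078]
theorem p80 : Pat 73 73 TBm TCm (C80.map Fm) R0Q006.P80 R0Q006.I80 := Vale.Agent.P032.Lt.pat_eq (E' := R0Q006.E80) (by decide +kernel) (pat_step (by decide +kernel) (q_cons (Vale.Agent.P032.Lt.q R0Q006.q80_0) (q_cons (Vale.Agent.P032.Lt.q R0Q006.q80_1) (q_cons (Vale.Agent.P032.Lt.q R0Q006.q80_2) (q_cons (Vale.Agent.P032.Lt.q R0Q006.q80_3) (q_cons (Vale.Agent.P032.Lt.q R0Q006.q80_4) (q_cons (Vale.Agent.P032.Lt.q R0Q006.q80_5) (q_cons (Vale.Agent.P032.Lt.q R0Q006.q80_6) q_nil))))))))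

def C81 : List ℕ := [0, 4, 8, 12, 16, 20, 24, 214017, 353281, 355329, 475137, 476161, 737281, 9046814313514, 9046881422378, 14122124008458, 19044390489130, 23729718253574, 23729722447878, 23729776973830, 23789864572934, 23789872961542, 23789931681798, 23789940070406]
theorem p81 : Pat 73 73 TBm TCm (C81.map Fm) R0Q006.P81 R0Q006.I81 := Vale.Agent.P032.Lt.pat_eq (E' := R0Q006.E81) (by decide +kernel) (pat_step (by decide +kernel) (q_cons (Vale.Agent.P032.Lt.q R0Q006.q81_0) (q_cons (Vale.Agent.P032.Lt.q R0Q006.q81_1) (q_cons (Vale.Agent.P032.Lt.q R0Q006.q81_2) (q_cons (Vale.Agent.P032.Lt.q R0Q006.q81_3) (q_cons (Vale.Agent.P032.Lt.q R0Q006.q81_4) (q_cons (Vale.Agent.P032.Lt.q R0Q006.q81_5) (q_cons (Vale.Agent.P032.Lt.q R0Q006.q81_6) (q_cons (Vale.Agent.P032.Lt.q R0Q006.q81_7) (q_cons (Vale.Agent.P032.Lt.q R0Q006.q81_8) q_nil))))))))))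

def C82 : List ℕ := [0, 4, 8, 12, 16, 20, 24, 87041, 220161, 347137, 349185, 606209, 611329, 737281, 742401, 9169895123994, 9169958038554, 9169959873562, 18305936092186, 18310634892314, 22157985279002, 24413695989766]
theorem p82 : Pat 73 73 TBm TCm (C82.map Fm) R0Q006.P82 R0Q006.I82 := Vale.Agent.P032.Lt.pat_eq (E' := R0Q006.E82) (by decide +kernel) (pat_step (by decide +kernel) (q_cons (Vale.Agent.P032.Lt.q R0Q006.q82_0) (q_cons (Vale.Agent.P032.Lt.q R0Q006.q82_1) (q_cons (Vale.Agent.P032.Lt.q R0Q006.q82_2) (q_cons (Vale.Agent.P032.Lt.q R0Q006.q82_3) (q_cons (Vale.Agent.P032.Lt.q R0Q006.q82_4) (q_cons (Vale.Agent.P032.Lt.q R0Q006.q82_5) (q_cons (Vale.Agent.P032.Lt.q R0Q006.q82_6) q_nil))))))))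

theorem p83 : Pat 73 73 TBm TCm (CB.map Fm) R0Q006.P83 R0Q006.I83 := Vale.Agent.P032.Lt.pat_eq (E' := R0Q006.E) eB (pat_step (by decide +kernel) (q_cons (Vale.Agent.P032.Lt.q R0Q006.q83_0) (q_cons (Vale.Agent.P032.Lt.q R0Q006.q83_1) (q_cons (Vale.Agent.P032.Lt.q R0Q006.q83_2) (q_cons (Vale.Agent.P032.Lt.q R0Q006.q83_3) (q_cons (Vale.Agent.P032.Lt.q R0Q006.q83_4) (q_cons (Vale.Agent.P032.Lt.q R0Q006.q83_5) (q_cons (Vale.Agent.P032.Lt.q R0Q006.q83_6) (q_cons (Vale.Agent.P032.Lt.q R0Q006.q83_7) (q_cons (Vale.Agent.P032.Lt.q R0Q006.q83_8) (q_cons (Vale.Agent.P032.Lt.q R0Q006.q83_9) (q_cons (Vale.Agent.P032.Lt.q R0Q006.q83_10) (q_cons (Vale.Agent.P032.Lt.q R0Q006.q83_11) (q_cons (Vale.Agent.P032.Lt.q R0Q006.q83_12) (q_cons (Vale.Agent.P032.Lt.q R0Q006.q83_13) (q_cons (Vale.Agent.P032.Lt.q R0Q006.q83_14) (q_cons (Vale.Agent.P032.Lt.q R0Q006.q83_15) q_nil)))))))))))))))))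

def C84 : List ℕ := [0, 4, 8, 12, 16, 20, 24, 82945, 218113, 349185, 476161, 482305, 4771999079434, 9591783123994, 13491732438026, 13921136624674]
theorem p84 : Pat 73 73 TBm TCm (C84.map Fm) R0Q006.P84 R0Q006.I84 := Vale.Agent.P032.Lt.pat_eq (E' := R0Q006.E84) (by decide +kernel) (pat_step (by decide +kernel) (q_cons (Vale.Agent.P032.Lt.q R0Q006.q84_0) (q_cons (Vale.Agent.P032.Lt.q R0Q006.q84_1) (q_cons (Vale.Agent.P032.Lt.q R0Q006.q84_2) (q_cons (Vale.Agent.P032.Lt.q R0Q006.q84_3) (q_cons (Vale.Agent.P032.Lt.q R0Q006.q84_4) (q_cons (Vale.Agent.P032.Lt.q R0Q006.q84_5) q_nil)))))))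

theorem p85 : Pat 73 73 TBm TCm (CB.map Fm) R0Q006.P85 R0Q006.I85 := Vale.Agent.P032.Lt.pat_eq (E' := R0Q006.E) eB (pat_step (by decide +kernel) (q_cons (Vale.Agent.P032.Lt.q R0Q006.q85_0) q_nil))

def C86 : List ℕ := [0, 4, 8, 12, 16, 20, 24, 82945, 347137, 478209, 606209, 737281, 17842660662282, 24278391937030, 24278459045894, 24338555033606, 24338613753862, 24338622142470]
theorem p86 : Pat 73 73 TBm TCm (C86.map Fm) R0Q006.P86 R0Q006.I86 := Vale.Agent.P032.Lt.pat_eq (E' := R0Q006.E86) (by decide +kernel) (pat_step (by decide +kernel) (q_cons (Vale.Agent.P032.Lt.q R0Q006.q86_0) (q_cons (Vale.Agent.P032.Lt.q R0Q006.q86_1) (q_cons (Vale.Agent.P032.Lt.q R0Q006.q86_2) q_nil))))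

theorem p87 : Pat 73 73 TBm TCm (CB.map Fm) R0Q006.P87 R0Q006.I87 := Vale.Agent.P032.Lt.pat_eq (E' := R0Q006.E) eB (pat_step (by decide +kernel) (q_cons (Vale.Agent.P032.Lt.q R0Q006.q87_0) (q_cons (Vale.Agent.P032.Lt.q R0Q006.q87_1) (q_cons (Vale.Agent.P032.Lt.q R0Q006.q87_2) (q_cons (Vale.Agent.P032.Lt.q R0Q006.q87_3) (q_cons (Vale.Agent.P032.Lt.q R0Q006.q87_4) (q_cons (Vale.Agent.P032.Lt.q R0Q006.q87_5) (q_cons (Vale.Agent.P032.Lt.q R0Q006.q87_6) (q_cons (Vale.Agent.P032.Lt.q R0Q006.q87_7) (q_cons (Vale.Agent.P032.Lt.q R0Q006.q87_8) (q_cons (Vale.Agent.P032.Lt.q R0Q006.q87_9) (q_cons (Vale.Agent.P032.Lt.q R0Q006.q87_10) (q_cons (Vale.Agent.P032.Lt.q R0Q006.q87_11) q_nil)))))))))))))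

def C88 : List ℕ := [0, 4, 8, 12, 16, 20, 24, 606209, 737281, 24278383548422, 24278404519942, 24338546644998, 24338555033606, 24338613753862]
theorem p88 : Pat 73 73 TBm TCm (C88.map Fm) R0Q006.P88 R0Q006.I88 := Vale.Agent.P032.Lt.pat_eq (E' := R0Q006.E88) (by decide +kernel) (pat_step (by decide +kernel) (q_cons (Vale.Agent.P032.Lt.q R0Q006.q88_0) (q_cons (Vale.Agent.P032.Lt.q R0Q006.q88_1) (q_cons (Vale.Agent.P032.Lt.q R0Q006.q88_2) (q_cons (Vale.Agent.P032.Lt.q R0Q006.q88_3) (q_cons (Vale.Agent.P032.Lt.q R0Q006.q88_4) (q_cons (Vale.Agent.P032.Lt.q R0Q006.q88_5) (q_cons (Vale.Agent.P032.Lt.q R0Q006.q88_6) (q_cons (Vale.Agent.P032.Lt.q R0Q006.q88_7) (q_cons (Vale.Agent.P032.Lt.q R0Q006.q88_8) (q_cons (Vale.Agent.P032.Lt.q R0Q006.q88_9) (q_cons (Vale.Agent.P032.Lt.q R0Q006.q88_10) (q_cons (Vale.Agent.P032.Lt.q R0Q006.q88_11) (q_cons (Vale.Agent.P032.Lt.q R0Q006.q88_12)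 (q_cons (Vale.Agent.P032.Lt.q R0Q006.q88_13) (q_cons (Vale.Agent.P032.Lt.q R0Q006.q88_14) (q_cons (Vale.Agent.P032.Lt.q R0Q006.q88_15) (q_cons (Vale.Agent.P032.Lt.q R0Q006.q88_16) q_nil))))))))))))))))))

def C89 : List ℕ := [0, 4, 8, 12, 16, 20, 24, 84993, 216065, 478209, 606209, 609281, 737281, 4649841681426, 4649845875730, 4770197234706, 13488041319434, 14041427698706]
theorem p89 : Pat 73 73 TBm TCm (C89.map Fm) R0Q007.P89 R0Q007.I89 := Vale.Agent.P032.Lt.pat_eq (E' := R0Q007.E89) (by decide +kernel) (pat_step (by decide +kernel) (q_cons (Vale.Agent.P032.Lt.q R0Q007.q89_0) (q_cons (Vale.Agent.P032.Lt.q R0Q007.q89_1) (q_cons (Vale.Agent.P032.Lt.q R0Q007.q89_2) (q_cons (Vale.Agent.P032.Lt.q R0Q007.q89_3) (q_cons (Vale.Agent.P032.Lt.q R0Q007.q89_4) (q_cons (Vale.Agent.P032.Lt.q R0Q007.q89_5) (q_cons (Vale.Agent.P032.Lt.q R0Q007.q89_6) (q_cons (Vale.Agent.P032.Lt.q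 R0Q007.q89_7) (q_cons (Vale.Agent.P032.Lt.q R0Q007.q89_8) (q_cons (Vale.Agent.P032.Lt.q R0Q007.q89_9) (q_cons (Vale.Agent.P032.Lt.q R0Q007.q89_10) (q_cons (Vale.Agent.P032.Lt.q R0Q007.q89_11) q_nil)))))))))))))

def C90 : List ℕ := [0, 4, 8, 12, 16, 20, 24, 212993, 344065, 347137, 475137, 737281]
theorem p90 : Pat 73 73 TBm TCm (C90.map Fm) R0Q007.P90 R0Q007.I90 := Vale.Agent.P032.Lt.pat_eq (E' := R0Q007.E90) (by decide +kernel) (pat_step (by decide +kernel) (q_cons (Vale.Agent.P032.Lt.q R0Q007.q90_0) (q_cons (Vale.Agent.P032.Lt.q R0Q007.q90_1) (q_cons (Vale.Agent.P032.Lt.q R0Q007.q90_2) (q_cons (Vale.Agent.P032.Lt.q R0Q007.q90_3) (q_cons (Vale.Agent.P032.Lt.q R0Q007.q90_4) (q_cons (Vale.Agent.P032.Lt.q R0Q007.q90_5) (q_cons (Vale.Agent.P032.Lt.q R0Q007.q90_6) (q_cons (Vale.Agent.P032.Lt.q R0Q007.q90_7) (q_cons (Vale.Agent.P032.Lt.q R0Q007.q90_8) (q_cons (Vale.Agent.P032.Lt.q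 R0Q007.q90_9) q_nil)))))))))))

def C91 : List ℕ := [0, 4, 8, 12, 16, 20, 24, 222209]
theorem p91 : Pat 73 73 TBm TCm (C91.map Fm) R0Q007.P91 R0Q007.I91 := Vale.Agent.P032.Lt.pat_eq (E' := R0Q007.E91) (by decide +kernel) (pat_step (by decide +kernel) (q_cons (Vale.Agent.P032.Lt.q R0Q007.q91_0) (q_cons (Vale.Agent.P032.Lt.q R0Q007.q91_1) (q_cons (Vale.Agent.P032.Lt.q R0Q007.q91_2) (q_cons (Vale.Agent.P032.Lt.q R0Q007.q91_3) (q_cons (Vale.Agent.P032.Lt.q R0Q007.q91_4) (q_cons (Vale.Agent.P032.Lt.q R0Q007.q91_5) (q_cons (Vale.Agent.P032.Lt.q R0Q007.q91_6) (q_cons (Vale.Agent.P032.Lt.q R0Q007.q91_7) (q_cons (Vale.Agent.P032.Lt.q R0Q007.q91_8) (q_cons (Vale.Agent.P032.Lt.q R0Q007.q91_9) (q_cons (Vale.Agent.P032.Lt.q R0Q007.q91_10) (q_cons (Vale.Agent.P032.Lt.q R0Q007.q91_11) (q_cons (Vale.Agent.P032.Lt.q R0Q007.q91_12) (q_cons (Vale.Agent.P032.Lt.q R0Q007.q91_13)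 (q_cons (Vale.Agent.P032.Lt.q R0Q007.q91_14) (q_cons (Vale.Agent.P032.Lt.q R0Q007.q91_15) (q_cons (Vale.Agent.P032.Lt.q R0Q007.q91_16) (q_cons (Vale.Agent.P032.Lt.q R0Q007.q91_17) (q_cons (Vale.Agent.P032.Lt.q R0Q007.q91_18) (q_cons (Vale.Agent.P032.Lt.q R0Q007.q91_19) (q_cons (Vale.Agent.P032.Lt.q R0Q007.q91_20) (q_cons (Vale.Agent.P032.Lt.q R0Q007.q91_21) (q_cons (Vale.Agent.P032.Lt.q R0Q007.q91_22) (q_cons (Vale.Agent.P032.Lt.q R0Q007.q91_23) (q_cons (Vale.Agent.P032.Lt.q R0Q007.q91_24) (q_cons (Vale.Agent.P032.Lt.q R0Q007.q91_25) (q_cons (Vale.Agent.P032.Lt.q R0Q007.q91_26) (q_cons (Vale.Agent.P032.Lt.q R0Q007.q91_27) (q_cons (Vale.Agent.P032.Lt.q R0Q007.q91_28) (q_cons (Vale.Agent.P032.Lt.q R0Q007.q91_29) (q_cons (Vale.Agent.P032.Lt.q R0Q007.q91_30) q_nil))))))))))))))))))))))))))))))))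

theorem p92 : Pat 73 73 TBm TCm (CB.map Fm) R0Q007.P92 R0Q007.I92 := Vale.Agent.P032.Lt.pat_eq (E' := R0Q007.E) eB (pat_step (by decide +kernel) (q_cons (Vale.Agent.P032.Lt.q R0Q007.q92_0) (q_cons (Vale.Agent.P032.Lt.q R0Q007.q92_1) q_nil)))

def L : List (List ℕ) := [R0Q000.P0, R0Q000.P1, R0Q000.P2, R0Q000.P3, R0Q000.P4, R0Q000.P5, R0Q000.P6, R0Q000.P7, R0Q000.P8, R0Q000.P9, R0Q000.P10, R0Q000.P11, R0Q000.P12, R0Q000.P13, R0Q001.P14, R0Q001.P15, R0Q001.P16, R0Q001.P17, R0Q001.P18, R0Q001.P19, R0Q001.P20, R0Q001.P21, R0Q001.P22, R0Q001.P23, R0Q002.P24, R0Q002.P25, R0Q002.P26, R0Q002.P27, R0Q002.P28, R0Q002.P29, R0Q002.P30, R0Q002.P31, R0Q002.P32, R0Q002.P33, R0Q002.P34, R0Q003.P35, R0Q003.P36, R0Q003.P37, R0Q003.P38, R0Q003.P39, R0Q003.P40, R0Q003.P41, R0Q003.P42, R0Q003.P43, R0Q003.P44, R0Q003.P45, R0Q003.P46, R0Q003.P47, R0Q003.P48, R0Q003.P49, R0Q003.P50,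 R0Q003.P51, R0Q003.P52, R0Q003.P53, R0Q003.P54, R0Q004.P55, R0Q004.P56, R0Q004.P57, R0Q004.P58, R0Q004.P59, R0Q004.P60, R0Q004.P61, R0Q004.P62, R0Q004.P63, R0Q004.P64, R0Q004.P65, R0Q004.P66, R0Q004.P67, R0Q004.P68, R0Q005.P69, R0Q005.P70, R0Q005.P71, R0Q005.P72, R0Q005.P73, R0Q005.P74, R0Q005.P75, R0Q006.P76, R0Q006.P77, R0Q006.P78, R0Q006.P79, R0Q006.P80, R0Q006.P81, R0Q006.P82, R0Q006.P83, R0Q006.P84, R0Q006.P85, R0Q006.P86, R0Q006.P87, R0Q006.P88, R0Q007.P89, R0Q007.P90, R0Q007.P91, R0Q007.P92]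

theorem all : ∀ P ∈ L, CrtF 73 73 TBm TCm (Vale.Agent.P032.Fam.fam3 (Vale.Agent.P032.Fam.im0)) P := crtF_cons p0 (crtF_cons p1 (crtF_cons p2 (crtF_cons p3 (crtF_cons p4 (crtF_cons p5 (crtF_cons p6 (crtF_cons p7 (crtF_cons p8 (crtF_cons p9 (crtF_cons p10 (crtF_cons p11 (crtF_cons p12 (crtF_cons p13 (crtF_cons p14 (crtF_cons p15 (crtF_cons p16 (crtF_cons p17 (crtF_cons p18 (crtF_cons p19 (crtF_cons p20 (crtF_cons p21 (crtF_cons p22 (crtF_cons p23 (crtF_cons p24 (crtF_cons p25 (crtF_cons p26 (crtF_cons p27 (crtF_cons p28 (crtF_cons p29 (crtF_cons p30 (crtF_cons p31 (crtF_cons p32 (crtF_cons p33 (crtF_cons p34 (crtF_cons p35 (crtF_cons p36 (crtF_cons p37 (crtF_cons p38 (crtF_cons p39 (crtF_cons p40 (crtF_cons p41 (crtF_cons p42 (crtF_cons p43 (crtF_cons p44 (crtF_cons p45 (crtF_cons p46 (crtF_cons p47 (crtF_cons p48 (crtF_cons p49 (crtF_cons p50 (crtF_cons p51 (crtF_cons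 p52 (crtF_cons p53 (crtF_cons p54 (crtF_cons p55 (crtF_cons p56 (crtF_cons p57 (crtF_cons p58 (crtF_cons p59 (crtF_cons p60 (crtF_cons p61 (crtF_cons p62 (crtF_cons p63 (crtF_cons p64 (crtF_cons p65 (crtF_cons p66 (crtF_cons p67 (crtF_cons p68 (crtF_cons p69 (crtF_cons p70 (crtF_cons p71 (crtF_cons p72 (crtF_cons p73 (crtF_cons p74 (crtF_cons p75 (crtF_cons p76 (crtF_cons p77 (crtF_cons p78 (crtF_cons p79 (crtF_cons p80 (crtF_cons p81 (crtF_cons p82 (crtF_cons p83 (crtF_cons p84 (crtF_cons p85 (crtF_cons p86 (crtF_cons p87 (crtF_cons p88 (crtF_cons p89 (crtF_cons p90 (crtF_cons p91 (crtF_cons p92 crtF_nil))))))))))))))))))))))))))))))))))))))))))))))))))))))))))))))))))))))))))))))))))))))))))))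

theorem ch : chT 73 73 TCm s0_000 L = true := by decide +kernel

end Vale.Agent.P032X.Cert.X3.A3.R0H000
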