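import Vale.Agent.P032X.H286.W73
import Vale.Agent.P032X.Cert.X3.A3.R0T
import Vale.Agent.P032X.Cert.X3.A3.R0H000

namespace Vale.Agent.P032X.Cert.X3.A3

open Vale.Agent.P032.H820.K Vale.Agent.P032.H357.MK Vale.Agent.P032.H286.E Vale.Agent.P032.H61 Vale.Agent.P032.H61.TF Vale.Agent.P032.BlkE Vale.Agent.P032.BlkS Vale.Agent.P032.H357 Vale.Agent.P032

theorem d0 : Fam.DQ Fam.Q3 tr0 := dq3_of R0H000.ch R0H000.all

end Vale.Agent.P032X.Cert.X3.A3
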