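import Vale.Agent.P032X.Cert.X3.A3.R0T

namespace Vale.Agent.P032X.Cert.X3.A3

open Vale.Agent.P032.H61

/-- the tree of all ranks -/
def t1 : PTr := tr0

end Vale.Agent.P032X.Cert.X3.A3
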